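import Vale.Agent.P330.S.AE
import Vale.Agent.P330.S.Mux
import Vale.Agent.P330.H797.DynDefs

/-!
# BLOCK: networks whose sites carry blocks

* `ODef`, `Mod`: open networks (modules). A module has input bits; its registers are defined by
  Boolean functions of (own or input) bits, thresholds and resolvent averages of own registers.
* `Fmt`: inner sites `P × Z`, blocks `Bl` and their encoding by bits at the inner sites; `Clean`.
* `BSpec`: the finite data of a network of blocks: the modules `hold`, `step`, `check`.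
* `BInst`: an instance: outer sites `Om`, wires, site functions `chi`, `eta`, `phi`,
  configurations and their words.
* `bnet`: the composite network. `Facts`, `TestSound`, `HoldSound`, `StepSound`, `CheckSound`: the
  hypotheses. `BSound`: the conclusion.
-/

namespace Vale.Agent.P330.H551

open Finset PCP.AR
open S (BitDef MDef Sem IsB Tst Ctl target MuxI)

/-! ### Open networks -/

/-- Definition of a register of an open network with the input bits `I`. -/
inductive ODef (Reg Rd CB I : Type)
  /-- Boolean function of own bits (`inl`), input bits (`inr`) and hard-wired bits -/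
  | bit (B : BitDef (Reg ⊕ I) Rd CB)
  | thr (α : ℚ) (ρ : Reg)
  /-- resolvent average of an own register over the pads (`false`), over all inner sites (`true`),
  with the common parameter `lam` (`none`) or with a parameter of its own -/
  | ra (own : Option ℚ) (glob : Bool) (ρ : Reg)

/-- The parameter of a resolvent average. -/
def ownLam (own : Option ℚ) (lam : ℝ) : ℝ := own.elim lam fun q => (q : ℝ)

/-- The parameter `lam` used by a definition. -/
def ODef.lamOf {Reg Rd CB I : Type} (lam : ℝ) : ODef Reg Rd CB I → ℝ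
  | .ra own _ _ => ownLam own lam
  | _ => lam

/-- The definition, as a definition over own and input registers. -/
def ODef.toM {Reg Rd CB I : Type} : ODef Reg Rd CB I → MDef (Reg ⊕ I) Rd CB
  | .bit B => .bit B
  | .thr α ρ => .thr α (.inl ρ)
  | .ra _ g ρ => .ra g (.inl ρ)

/-- A module with the input bits `I` and the output bits `O`. -/
structure Mod (I O : Type) where
  Reg : Type
  fReg : Fintype Reg
  dReg : DecidableEq Reg
  /-- names of maps of the inner sites -/
  Rd : Type
  /-- names of hard-wired bits -/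
  CB : Type
  net : Reg → ODef Reg Rd CB I
  out : O → Reg

attribute [instance] Mod.fReg Mod.dReg

/-- The values `x` obey the module with the inputs `u`, up to `β`. -/
structure Mod.Obeys {I O : Type} (M : Mod I O) {W : Type} [Fintype W] (E : Sem M.Rd M.CB W)
    (ε lam β : ℝ) (x : M.Reg → W → ℝ) (u : I → W → ℝ) : Prop where
  mem : ∀ ρ ω, 0 ≤ x ρ ω ∧ x ρ ω ≤ 1
  memI : ∀ i ω, 0 ≤ u i ω ∧ u i ω ≤ 1
  rel : ∀ ρ, pr (fun ω =>
    ¬ (M.net ρ).toM.Rel E ε ((M.net ρ).lamOf lam) (Sum.elim x u) (.inl ρ) ω) ≤ β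

/-- The parameters `ε`, `lam`, `β` are small. -/
structure Small (η ε lam β : ℝ) : Prop where
  ε_pos : 0 < ε
  lam_pos : 0 < lam
  lam_le : lam ≤ η
  ε_le : ε ≤ η * lam
  β_le : β ≤ η * lam

/-! ### Formats -/

/-- The format of the blocks: points, pads, blocks and the bits of a block at a point. -/
structure Fmt (L : Type) where
  P : Type
  fP : Fintype P
  nP : Nonempty P
  Z : Type
  fZ : Fintype Z
  nZ : Nonempty Z
  Bl : Type
  enc : Bl → L → P → Bool

attribute [instance] Fmt.fP Fmt.nP Fmt.fZ Fmt.nZ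

/-- inner sites -/
abbrev Fmt.W {L : Type} (F : Fmt L) : Type := F.P × F.Z

/-- The stream `u` is `ρ`-near the code of the block `s`. -/
def Fmt.Clean {L : Type} (F : Fmt L) (ε ρ : ℝ) (s : F.Bl) (u : L → F.W → ℝ) : Prop :=
  pr (fun ω : F.W => ∃ l, ¬ IsB ε (F.enc s l ω.1) (u l ω)) ≤ ρ

/-! ### The composite network -/

/-- Averages over the pads, over the inner sites, over all sites. -/
inductive Grp
  | pad
  | inn
  | all
  deriving DecidableEq

/-- Definition of a register of the composite network. -/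
inductive GDef (Reg Rd CB : Type)
  | bit (B : BitDef Reg Rd CB)
  | thr (α : ℚ) (ρ : Reg)
  | ra (own : Option ℚ) (g : Grp) (ρ : Reg)

/-- The meaning of the names of reads, hard-wired bits and neighbours. The neighbours `nb 0, …, 3`
are in the direction of the pads, `nb 4, …, 7` in the direction of the points, the `nbO` in the
direction of the outer sites. -/
structure GSem (Rd CB Ω : Type) (nO : ℕ) where
  rd : Rd → Ω → Ω
  cb : CB → Ω → Bool
  nb : Fin 8 → Ω → Ω
  nbO : Fin nO → Ω → Ω

/-- The averages over the neighbours. -/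
noncomputable def GSem.avg {Rd CB Ω : Type} {nO : ℕ} (E : GSem Rd CB Ω nO) :
    Grp → (Ω → ℝ) → Ω → ℝ
  | .pad, f, ω => (f (E.nb 0 ω) + f (E.nb 1 ω) + f (E.nb 2 ω) + f (E.nb 3 ω)) / 4
  | .inn, f, ω => (∑ k : Fin 8, f (E.nb k ω)) / 8
  | .all, f, ω => ((∑ k : Fin 8, f (E.nb k ω)) + ∑ k : Fin nO, f (E.nbO k ω)) / (8 + nO)

/-- The value of the register `ρ` at the site `ω` obeys its definition, up to `ε`. -/
def GDef.Rel {Reg Rd CB Ω : Type} {nO : ℕ} (E : GSem Rd CB Ω nO) (ε lam : ℝ) (x : Reg → Ω → ℝ) (ρ : Reg)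
    (ω : Ω) : GDef Reg Rd CB → Prop
  | .bit B => ∀ b : Bool, (∀ y : B.ι → Bool,
      (∀ i, Sum.elim (fun p => ∀ b', IsB ε b' (x p.2 (E.rd p.1 ω)) → y i = b')
        (fun κ => y i = E.cb κ ω) (B.inp i)) → B.f y = b) → IsB ε b (x ρ ω)
  | .thr α ρ' => ((α : ℝ) + 2 * ε < x ρ' ω → IsB ε true (x ρ ω)) ∧
      (x ρ' ω < (α : ℝ) - 2 * ε → IsB ε false (x ρ ω))
  | .ra o .pad ρ' =>
    |x ρ ω - ((1 - ownLam o lam) * E.avg .pad (x ρ) ω + ownLam o lam * x ρ' ω)| ≤ 20 * ε
  | .ra o .inn ρ' =>
    |x ρ ω - ((1 - ownLam o lam) * E.avg .inn (x ρ) ω + ownLam o lam * x ρ' ω)| ≤ 20 * ε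
  | .ra o .all ρ' =>
    |x ρ ω - ((1 - ownLam o lam) * E.avg .all (x ρ) ω + ownLam o lam * x ρ' ω)| ≤
      (2 * nO + 20) * ε

/-- The finite data of a network of blocks. -/
structure BSpec where
  /-- bits of a block at an inner site -/
  L : Type
  fL : Fintype L
  dL : DecidableEq L
  /-- number of wires -/
  k : ℕ
  /-- the wire that is the identity -/
  own : Fin k
  /-- number of permutations of the outer expander -/
  nO : ℕ
  nO_pos : 0 < nO
  /-- number of stages of `hold` minus one -/
  r : ℕ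
  hold : Mod (Fin k × L) L
  step : Mod (Fin k × L) L
  check : Mod (Fin k × L) Unit

attribute [instance] BSpec.fL BSpec.dL

variable (N : BSpec)

/-- Registers of the composite network; `z = false` for `X`, `z = true` for `Y`. -/
inductive BReg
  /-- what is written into the block stream -/
  | pre (z : Bool) (l : N.L)
  /-- the block stream: threshold `1/2` of `pre` -/
  | x (z : Bool) (l : N.L)
  /-- threshold `1/4` of `pre` -/
  | lo (z : Bool) (l : N.L)
  /-- threshold `3/4` of `pre` -/
  | hi (z : Bool) (l : N.L)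
  /-- registers of the stage `j` of the module `hold` -/
  | hold (z : Bool) (j : Fin (N.r + 1)) (ρ : N.hold.Reg)
  /-- registers of the module `step` (`z = false`: successor of `X`, `z = true`: predecessor of
  `Y`) -/
  | step (z : Bool) (ρ : N.step.Reg)
  | check (z : Bool) (ρ : N.check.Reg)
  | t (k : Tst)
  | ta (k : Tst)
  | tf (k : Tst)
  | q (i : Fin 3)
  | qa (i : Fin 3)
  | th (i : Fin 3) (l : Fin 5)

/-- Names of the reads: a wire (`none`: no wire) and a map of inner sites of one of the modules. -/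
inductive BRd
  | self
  | rd (i : Option (Fin N.k)) (R : N.hold.Rd ⊕ N.step.Rd ⊕ N.check.Rd)

/-- Names of the hard-wired bits. -/
inductive BCB
  | start (l : N.L)
  | hold (κ : N.hold.CB)
  | step (z : Bool) (κ : N.step.CB)
  | check (κ : N.check.CB)

variable {N}

/-- A module in the composite network. -/
def emb {O : Type} {M : Mod (Fin N.k × N.L) O} (own : M.Reg → BReg N) (inp : N.L → BReg N)
    (rdn : M.Rd → N.hold.Rd ⊕ N.step.Rd ⊕ N.check.Rd) (cbn : M.CB → BCB N) :
    ODef M.Reg M.Rd M.CB (Fin N.k × N.L) → GDef (BReg N) (BRd N) (BCB N)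
  | .bit B => .bit
      { ι := B.ι
        fι := B.fι
        inp := fun i => match B.inp i with
          | .inl (R, .inl ρ) => .inl (.rd none (rdn R), own ρ)
          | .inl (R, .inr a) => .inl (.rd (some a.1) (rdn R), inp a.2)
          | .inr κ => .inr (cbn κ)
        f := B.f }
  | .thr α ρ => .thr α (own ρ)
  | .ra o g ρ => .ra o (if g then .inn else .pad) (own ρ)

/-- input of the stage `j` of `hold` -/
def hin (z : Bool) (j : Fin (N.r + 1)) (l : N.L) : BReg N :=
  if (j : ℕ) = 0 then .x z l else .hold z ⟨(j : ℕ) - 1, by omega⟩ (N.hold.out l)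

/-- the corrected block stream -/
def hN (z : Bool) (l : N.L) : BReg N := .hold z (Fin.last N.r) (N.hold.out l)

/-- the block stream of the next configuration -/
def aN (z : Bool) (l : N.L) : BReg N := .step z (N.step.out l)

/-- Definition of `pre z l`: start if `s < 1/6`; otherwise `X` holds if `b < 2/3` and `Y` holds if
`b > 1/3`; otherwise copy the other register if `a < 1/2`; otherwise step of the other register. -/
def muxDef (z : Bool) (l : N.L) : BitDef (BReg N) (BRd N) (BCB N) where
  ι := MuxI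
  fι := inferInstance
  inp
    | .s1 => .inl (.self, .th 2 0)
    | .bsel => .inl (.self, .th 1 (if z then 1 else 3))
    | .asel => .inl (.self, .th 0 2)
    | .start => .inr (.start l)
    | .hold => .inl (.self, hN z l)
    | .other => .inl (.self, hN (!z) l)
    | .next => .inl (.self, aN (!z) l)
  f y := if y .s1 = false then y .start
    else if y .bsel = z then y .hold
    else if y .asel = false then y .other
    else y .next

open Classical in
/-- Comparison of two families of bits. -/
noncomputable def cmpDef (u v : N.L → (BRd N × BReg N) ⊕ BCB N) :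
    BitDef (BReg N) (BRd N) (BCB N) where
  ι := Bool × N.L
  fι := inferInstance
  inp p := if p.1 then v p.2 else u p.2
  f y := decide (∃ c, y (false, c) ≠ y (true, c))

open Classical in
/-- Definition of the tests. The test of a register fails if the module `check` says so or if a
value of `pre` is not pure (`lo` and not `hi`). -/
noncomputable def tstDef : Tst → BitDef (BReg N) (BRd N) (BCB N)
  | .T z =>
    { ι := Unit ⊕ (Bool × N.L)
      fι := inferInstance
      inp := fun i => match i with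
        | .inl _ => .inl (.self, .check z (N.check.out ()))
        | .inr (false, l) => .inl (.self, .lo z l)
        | .inr (true, l) => .inl (.self, .hi z l)
      f := fun y => y (.inl ()) || decide (∃ l, y (.inr (false, l)) = true ∧
        y (.inr (true, l)) = false) }
  | .E0 => cmpDef (fun l => .inl (.self, .x false l)) (fun l => .inl (.self, .x true l))
  | .E1 => cmpDef (fun l => .inl (.self, .x true l)) (fun l => .inl (.self, aN false l))
  | .D z => cmpDef (fun l => .inl (.self, .x z l)) (fun l => .inr (.start l))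

/-- Definition of the control bits. -/
def qDef (i : Fin 3) : BitDef (BReg N) (BRd N) (BCB N) where
  ι := (Fin 3 × Fin 5) ⊕ Tst
  fι := inferInstance
  inp
    | .inl p => .inl (.self, .th p.1 p.2)
    | .inr k => .inl (.self, .tf k)
  f y :=
    let c : Ctl := ⟨fun i l => y (.inl (i, l)), fun k => y (.inr k)⟩
    target c.th c.v (c.sg false) (c.sg true) i

variable (N) in
/-- The composite network (with the threshold `τ` for the tests). -/
noncomputable def bnet (τ : ℚ) : BReg N → GDef (BReg N) (BRd N) (BCB N)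
  | .pre z l => .bit (muxDef z l)
  | .x z l => .thr (1 / 2) (.pre z l)
  | .lo z l => .thr (1 / 4) (.pre z l)
  | .hi z l => .thr (3 / 4) (.pre z l)
  | .hold z j ρ => emb (M := N.hold) (.hold z j) (hin z j) .inl .hold (N.hold.net ρ)
  | .step z ρ => emb (M := N.step) (.step z) (hN z) (fun R => .inr (.inl R)) (.step z)
      (N.step.net ρ)
  | .check z ρ => emb (M := N.check) (.check z) (.x z) (fun R => .inr (.inr R)) .check
      (N.check.net ρ)
  | .t k => .bit (tstDef k)
  | .ta k => .ra none .all (.t k)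
  | .tf k => .thr τ (.ta k)
  | .q i => .bit (qDef i)
  | .qa i => .ra none .all (.q i)
  | .th i l => .thr (((l : ℕ) + 1 : ℚ) / 6) (.qa i)

/-! ### Instances -/

/-- An instance of a network of blocks. -/
structure BInst (N : BSpec) extends Fmt N.L where
  /-- outer sites -/
  Om : Type
  fOm : Fintype Om
  nOm : Nonempty Om
  /-- configurations -/
  Cf : Type
  /-- the dynamics -/
  sys : H797.BSys Cf Om Bl N.k
  /-- the expanders -/
  sO : Fin N.nO → Om ≃ Om
  sP : Fin 4 → P ≃ P
  sZ : Fin 4 → Z ≃ Z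
  /-- the maps of inner sites -/
  rdH : N.hold.Rd → P × Z → P × Z
  rdS : N.step.Rd → P × Z → P × Z
  rdC : N.check.Rd → P × Z → P × Z
  /-- the hard-wired bits of the modules -/
  cbH : N.hold.CB → Om → P × Z → Bool
  cbS : Bool → N.step.CB → Om → P × Z → Bool
  cbC : N.check.CB → Om → P × Z → Bool

attribute [instance] BInst.fOm BInst.nOm

/-- sites -/
abbrev BInst.Site (I : BInst N) : Type := I.Om × (I.P × I.Z)

/-- the neighbours of an inner site -/
def BInst.nbI (I : BInst N) (k : Fin 8) (ω : I.P × I.Z) : I.P × I.Z :=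
  if h : (k : ℕ) < 4 then (ω.1, I.sZ ⟨k, h⟩ ω.2) else (I.sP ⟨k - 4, by omega⟩ ω.1, ω.2)

/-- The semantics of the module `hold` at the outer site `h`. -/
def BInst.semH (I : BInst N) (h : I.Om) : Sem N.hold.Rd N.hold.CB (I.P × I.Z) where
  rd := I.rdH
  cb κ := I.cbH κ h
  nb := I.nbI

/-- The semantics of the module `step` at the outer site `h`. -/
def BInst.semS (I : BInst N) (z : Bool) (h : I.Om) : Sem N.step.Rd N.step.CB (I.P × I.Z) where
  rd := I.rdS
  cb κ := I.cbS z κ h
  nb := I.nbI

/-- The semantics of the module `check` at the outer site `h`. -/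
def BInst.semC (I : BInst N) (h : I.Om) : Sem N.check.Rd N.check.CB (I.P × I.Z) where
  rd := I.rdC
  cb κ := I.cbC κ h
  nb := I.nbI

/-- The semantics of the composite network. -/
def BInst.sem (I : BInst N) : GSem (BRd N) (BCB N) I.Site N.nO where
  rd
    | .self, ω => ω
    | .rd i R, ω => (i.elim ω.1 fun i => I.sys.wr i ω.1,
        Sum.elim (fun R => I.rdH R ω.2)
          (Sum.elim (fun R => I.rdS R ω.2) fun R => I.rdC R ω.2) R)
  cb
    | .start l, ω => I.enc (I.sys.word I.sys.w0 ω.1) l ω.2.1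
    | .hold κ, ω => I.cbH κ ω.1 ω.2
    | .step z κ, ω => I.cbS z κ ω.1 ω.2
    | .check κ, ω => I.cbC κ ω.1 ω.2
  nb k ω := (ω.1, I.nbI k ω.2)
  nbO k ω := (I.sO k ω.1, ω.2)

/-- The values `x` obey the composite network, except for a small fraction of the sites. -/
def BInst.Obeys (I : BInst N) (τ : ℚ) (ε lam β : ℝ) (x : BReg N → I.Site → ℝ) : Prop :=
  (∀ ρ ω, 0 ≤ x ρ ω ∧ x ρ ω ≤ 1) ∧
  ∀ ρ, pr (fun ω : I.Site => ¬ (bnet N τ ρ).Rel I.sem ε lam x ρ ω) ≤ β

/-- the block stream `f` (a family of registers) at the outer site `h` -/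
def BInst.str (I : BInst N) (x : BReg N → I.Site → ℝ) (f : N.L → BReg N) (h : I.Om) :
    N.L → I.P × I.Z → ℝ := fun l ω => x (f l) (h, ω)

/-- The content of the register `z` is near the word of `w`: for all outer sites up to `ρ₀` the
block stream is `ρin`-near the code of the block. -/
def BInst.Near (I : BInst N) (ε ρin ρ₀ : ℝ) (x : BReg N → I.Site → ℝ) (z : Bool) (w : I.Cf) :
    Prop :=
  pr (fun h : I.Om => ¬ I.Clean ε ρin (I.sys.word w h) (I.str x (.x z) h)) ≤ ρ₀

/-! ### Hypotheses -/

/-- The constants. -/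
structure BConst where
  /-- gap of the expanders -/
  g : ℝ
  g_nonneg : 0 ≤ g
  g_lt : g < 1
  /-- an input block is read correctly if its stream is `ρin`-near its code -/
  ρin : ℝ
  ρin_pos : 0 < ρin
  /-- distance of the codes of blocks -/
  θin : ℝ
  θin_lt : 2 * ρin < θin
  /-- soundness of the test -/
  κ : ℝ → ℝ
  κ_pos : ∀ ρ, 0 < ρ → 0 < κ ρ
  /-- distance of the words -/
  θ : ℝ
  θ_pos : 0 < θ
  /-- radius and constant of the contraction -/
  ρ₁ : ℝ
  ρ₁_pos : 0 < ρ₁
  c0 : ℝ
  c0_nonneg : 0 ≤ c0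
  c0_le : c0 ≤ 1
  /-- threshold of the flag of `check` -/
  κin : ℝ
  κin_pos : 0 < κin

/-- What has to be known of an instance. -/
structure BInst.Facts (I : BInst N) (c : BConst) : Prop where
  gapO : H855.Gap I.sO c.g
  gapP : H855.Gap I.sP c.g
  gapZ : H855.Gap I.sZ c.g
  own : I.sys.own = N.own
  /-- distance of the codes of blocks -/
  encDist : ∀ s s' : I.Bl, s ≠ s' →
    c.θin ≤ pr fun p : I.P => ∃ l, I.enc s l p ≠ I.enc s' l p
  dyn : H797.BFacts I.sys c.κ c.θ c.ρ₁ c.c0

/-- Soundness of the module `hold` (for a class of instances): `G` marks the clean inputs; the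
output is `ρ`-near. -/
def HoldSound (N : BSpec) (Q : BInst N → Prop) (ρin ρ : ℝ) : Prop :=
  ∃ η : ℝ, 0 < η ∧ ∀ I : BInst N, Q I → ∀ h : I.Om, ∀ ε lam β : ℝ,
    Small η ε lam β → ∀ (x : N.hold.Reg → I.P × I.Z → ℝ) (u : Fin N.k × N.L → I.P × I.Z → ℝ),
    N.hold.Obeys (I.semH h) ε lam β x u →
    ∀ (G : Fin N.k → Option I.Bl) (s' : I.Bl),
      (∀ i s, G i = some s → I.Clean ε ρin s fun l => u (i, l)) →
      (∀ X : Fin N.k → Option I.Bl, (∀ i s, G i = some s → X i = some s) →
        I.sys.eta h X = s') →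
      I.Clean ε ρ s' fun l => x (N.hold.out l)

/-- Soundness of the module `step`. -/
def StepSound (N : BSpec) (Q : BInst N → Prop) (ρin ρ : ℝ) : Prop :=
  ∃ η : ℝ, 0 < η ∧ ∀ I : BInst N, Q I → ∀ (z : Bool) (h : I.Om), ∀ ε lam β : ℝ,
    Small η ε lam β → ∀ (x : N.step.Reg → I.P × I.Z → ℝ) (u : Fin N.k × N.L → I.P × I.Z → ℝ),
    N.step.Obeys (I.semS z h) ε lam β x u →
    ∀ s : Fin N.k → I.Bl, (∀ i, I.Clean ε ρin (s i) fun l => u (i, l)) →
      I.Clean ε ρ (I.sys.phi z h s) fun l => x (N.step.out l)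

/-- The stream `u` has pure values up to `ρ`. -/
def Fmt.Crisp {L : Type} (F : Fmt L) (ε ρ : ℝ) (u : L → F.W → ℝ) : Prop :=
  pr (fun ω : F.W => ∃ l, ¬ (IsB ε true (u l ω) ∨ IsB ε false (u l ω))) ≤ ρ

/-- The module `check`, flag: if the output is `1` at few inner sites only and if the own stream
has pure values at most of the sites, then the own stream is clean. -/
def CheckFlag (N : BSpec) (Q : BInst N → Prop) (ρin κin : ℝ) : Prop :=
  ∃ η : ℝ, 0 < η ∧ ∀ I : BInst N, Q I → ∀ h : I.Om, ∀ ε lam β : ℝ,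
    Small η ε lam β →
    ∀ (x : N.check.Reg → I.P × I.Z → ℝ) (u : Fin N.k × N.L → I.P × I.Z → ℝ),
    N.check.Obeys (I.semC h) ε lam β x u →
    I.Crisp ε κin (fun l => u (N.own, l)) →
    pr (fun ω => IsB ε true (x (N.check.out ()) ω)) ≤ κin →
      ∃ s : I.Bl, I.Clean ε ρin s fun l => u (N.own, l)

/-- The module `check`: clean inputs that fail the check are rejected. -/
def CheckReject (N : BSpec) (Q : BInst N → Prop) (ρin ρ : ℝ) : Prop :=
  ∃ η : ℝ, 0 < η ∧ ∀ I : BInst N, Q I → ∀ h : I.Om, ∀ ε lam β : ℝ,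
    Small η ε lam β →
    ∀ (x : N.check.Reg → I.P × I.Z → ℝ) (u : Fin N.k × N.L → I.P × I.Z → ℝ),
    N.check.Obeys (I.semC h) ε lam β x u →
    ∀ s : Fin N.k → I.Bl, (∀ i, I.Clean ε ρin (s i) fun l => u (i, l)) →
      ¬ I.sys.chi h s → pr (fun ω => ¬ IsB ε true (x (N.check.out ()) ω)) ≤ ρ

/-- The module `check`: very clean inputs that pass the check are accepted. -/
def CheckAccept (N : BSpec) (Q : BInst N → Prop) (ρa ρ : ℝ) : Prop :=
  ∃ η : ℝ, 0 < η ∧ ∀ I : BInst N, Q I → ∀ h : I.Om, ∀ ε lam β : ℝ,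
    Small η ε lam β →
    ∀ (x : N.check.Reg → I.P × I.Z → ℝ) (u : Fin N.k × N.L → I.P × I.Z → ℝ),
    N.check.Obeys (I.semC h) ε lam β x u →
    ∀ s : Fin N.k → I.Bl, (∀ i, I.Clean ε ρa (s i) fun l => u (i, l)) →
      I.sys.chi h s → pr (fun ω => ¬ IsB ε false (x (N.check.out ()) ω)) ≤ ρ

/-- **Soundness of the network of blocks**, for a class of instances. -/
def BSound (N : BSpec) (Q : BInst N → Prop) (ρin : ℝ) (τ : ℚ) (ρ₀ : ℝ) : Prop :=
  ∃ lam : ℚ, 0 < lam ∧ lam < 1 ∧ ∃ ε₀ : ℚ, 0 < ε₀ ∧ ε₀ < 1 / 100 ∧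
    ∃ β : ℝ, 0 < β ∧ ∀ I : BInst N, Q I → ∀ x : BReg N → I.Site → ℝ,
      I.Obeys τ ε₀ lam β x →
      (∃ w, I.sys.Valid w ∧ I.Near ε₀ ρin ρ₀ x false w ∧ ¬ I.sys.Valid (I.sys.step false w)) ∨
      (∃ w, I.sys.Valid w ∧ w ≠ I.sys.w0 ∧ I.Near ε₀ ρin ρ₀ x true w ∧
        ¬ I.sys.Valid (I.sys.step true w))

end Vale.Agent.P330.H551
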