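import Vale.Agent.P330.Q.AE

/-!
# The gap of a product of expanders and resolvent averages over a product
-/

namespace Vale.Agent.P330.H551

open Finset PCP.AR Filter Topology
open H855 (mean)
open S

/-! ### Resolvent averages over outer sites, points and pads -/

section RA

theorem avg_rep {V J K : Type*} [Fintype J] [Fintype K] [Nonempty K] (s : J → V ≃ V)
    (f : V → ℝ) (z : V) : H855.avg (fun p : J × K => s p.1) f z = H855.avg s f z := by
  have hK : (Fintype.card K : ℝ) ≠ 0 := by exact_mod_cast Fintype.card_ne_zero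
  unfold H855.avg
  rw [Fintype.sum_prod_type, Fintype.card_prod]
  simp only [Finset.sum_const, card_univ, nsmul_eq_mul]
  rw [← Finset.mul_sum]
  push_cast
  rw [mul_comm (Fintype.card J : ℝ), mul_div_mul_left _ _ hK]

theorem avg_rep' {V J K : Type*} [Fintype J] [Fintype K] [Nonempty J] (s : K → V ≃ V)
    (f : V → ℝ) (z : V) : H855.avg (fun p : J × K => s p.2) f z = H855.avg s f z := by
  have hJ : (Fintype.card J : ℝ) ≠ 0 := by exact_mod_cast Fintype.card_ne_zero
  unfold H855.avg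
  rw [Fintype.sum_prod_type, Fintype.card_prod]
  simp only [Finset.sum_const, card_univ, nsmul_eq_mul]
  push_cast
  rw [mul_div_mul_left _ _ hJ]

/-- Permutations of a product: one coordinate is moved. -/
def prodPerm2 {V W J K : Type*} (s : J → V ≃ V) (t : K → W ≃ W) : J ⊕ K → (V × W ≃ V × W)
  | Sum.inl j => (s j).prodCongr (Equiv.refl W)
  | Sum.inr j => (Equiv.refl V).prodCongr (t j)

/-- The gap of a product, different numbers of permutations. -/
theorem gap_prod2 {V W J K : Type*} [Fintype V] [Fintype W] [Nonempty V] [Nonempty W] [Fintype J]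
    [Fintype K] [Nonempty J] [Nonempty K] {s : J → V ≃ V} {t : K → W ≃ W} {g : ℝ} (hg : g ≤ 1)
    (hs : H855.Gap s g) (ht : H855.Gap t g) :
    H855.Gap (prodPerm2 s t) (1 - (1 - g) / (Fintype.card J + Fintype.card K)) := by
  have hJ : (1 : ℝ) ≤ Fintype.card J := by exact_mod_cast Fintype.card_pos (α := J)
  have hK : (1 : ℝ) ≤ Fintype.card K := by exact_mod_cast Fintype.card_pos (α := K)
  have h1 : H855.Gap (fun p : J × K => s p.1) g := fun f hf => by
    simp only [avg_rep]
    exact hs f hf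
  have h2 : H855.Gap (fun p : J × K => t p.2) g := fun f hf => by
    simp only [avg_rep']
    exact ht f hf
  have h3 := H855.gap_prod h1 h2
  intro f hf
  have h4 := h3 f hf
  set S : ℝ := ∑ z, f z ^ 2 with hS
  have hS0 : 0 ≤ S := Finset.sum_nonneg fun z _ => sq_nonneg _
  set a : ℝ := ∑ z, f z * H855.avg (fun j : J => (s j).prodCongr (Equiv.refl W)) f z with ha
  set b : ℝ := ∑ z, f z * H855.avg (fun j : K => (Equiv.refl V).prodCongr (t j)) f z with hb
  have h5 : |a| ≤ S := H855.abs_sum_mul_avg_le _ f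
  have h6 : |b| ≤ S := H855.abs_sum_mul_avg_le _ f
  have hJ0 : (Fintype.card J : ℝ) ≠ 0 := by positivity
  have hK0 : (Fintype.card K : ℝ) ≠ 0 := by positivity
  have h7 : ∑ z, f z * H855.avg (H855.prodPerm (fun p : J × K => s p.1)
      (fun p : J × K => t p.2)) f z = (a + b) / 2 := by
    rw [ha, hb, ← Finset.sum_add_distrib, Finset.sum_div]
    refine Finset.sum_congr rfl fun z _ => ?_
    have e1 : H855.avg (fun j : J => (s j).prodCongr (Equiv.refl W)) f z =
        H855.avg (fun p : J × K => (s p.1).prodCongr (Equiv.refl W)) f z :=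
      (avg_rep (K := K) (fun j : J => (s j).prodCongr (Equiv.refl W)) f z).symm
    have e2 : H855.avg (fun j : K => (Equiv.refl V).prodCongr (t j)) f z =
        H855.avg (fun p : J × K => (Equiv.refl V).prodCongr (t p.2)) f z :=
      (avg_rep' (J := J) (fun j : K => (Equiv.refl V).prodCongr (t j)) f z).symm
    rw [e1, e2]
    unfold H855.avg
    rw [Fintype.sum_sum_type, Fintype.card_sum]
    have f0 : ∀ j, H855.prodPerm (fun p : J × K => s p.1) (fun p : J × K => t p.2) (Sum.inl j) =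
      (s j.1).prodCongr (Equiv.refl W) := fun j => rfl
    have f1 : ∀ j, H855.prodPerm (fun p : J × K => s p.1) (fun p : J × K => t p.2) (Sum.inr j) =
      (Equiv.refl V).prodCongr (t j.2) := fun j => rfl
    simp only [f0, f1, Fintype.card_prod]
    push_cast
    field_simp
    ring
  have h8 : ∑ z, f z * H855.avg (prodPerm2 s t) f z =
      (Fintype.card J * a + Fintype.card K * b) / (Fintype.card J + Fintype.card K) := by
    rw [ha, hb, Finset.mul_sum, Finset.mul_sum, ← Finset.sum_add_distrib, Finset.sum_div]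
    refine Finset.sum_congr rfl fun z _ => ?_
    unfold H855.avg
    rw [Fintype.sum_sum_type, Fintype.card_sum]
    have f0 : ∀ j, prodPerm2 s t (Sum.inl j) = (s j).prodCongr (Equiv.refl W) := fun j => rfl
    have f1 : ∀ j, prodPerm2 s t (Sum.inr j) = (Equiv.refl V).prodCongr (t j) := fun j => rfl
    simp only [f0, f1]
    push_cast
    field_simp
  rw [h7] at h4
  rw [h8]
  have hJK : (0 : ℝ) < Fintype.card J + Fintype.card K := by positivity
  rw [abs_div, abs_of_pos hJK, div_le_iff₀ hJK]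
  have h9 : (1 - (1 - g) / ((Fintype.card J : ℝ) + Fintype.card K)) * S *
      (Fintype.card J + Fintype.card K) = (Fintype.card J + Fintype.card K - (1 - g)) * S := by
    field_simp
  rw [h9]
  have e1 := abs_le.1 h4
  have e2 := abs_le.1 h5
  have e3 := abs_le.1 h6
  obtain ⟨e1a, e1b⟩ := e1
  have k1 : 0 ≤ (1 - g) * S := mul_nonneg (by linarith) hS0
  refine abs_le.2 ⟨?_, ?_⟩
  · rcases le_total (Fintype.card J : ℝ) (Fintype.card K) with h | h
    · nlinarith [mul_nonneg (sub_nonneg.2 h) (by linarith : 0 ≤ b + S),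
        mul_nonneg (sub_nonneg.2 hJ) k1]
    · nlinarith [mul_nonneg (sub_nonneg.2 h) (by linarith : 0 ≤ a + S),
        mul_nonneg (sub_nonneg.2 hK) k1]
  · rcases le_total (Fintype.card J : ℝ) (Fintype.card K) with h | h
    · nlinarith [mul_nonneg (sub_nonneg.2 h) (by linarith : 0 ≤ S - b),
        mul_nonneg (sub_nonneg.2 hJ) k1]
    · nlinarith [mul_nonneg (sub_nonneg.2 h) (by linarith : 0 ≤ S - a),
        mul_nonneg (sub_nonneg.2 hK) k1]

variable {O V W : Type} [Fintype O] [Nonempty O] [Fintype V] [Nonempty V] [Fintype W] [Nonempty W]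

/-- the gap of the product of outer sites, points and pads -/
noncomputable def gAll (n : ℕ) (g : ℝ) : ℝ := 1 - (1 - (1 + g) / 2) / (n + 8)

theorem gAll_lt (n : ℕ) {g : ℝ} (h : g < 1) : gAll n g < 1 := by
  unfold gAll
  have : 0 < (1 - (1 + g) / 2) / ((n : ℝ) + 8) := by
    apply div_pos <;> [linarith; positivity]
  linarith

theorem gAll_nonneg (n : ℕ) {g : ℝ} (h : 0 ≤ g) : 0 ≤ gAll n g := by
  unfold gAll
  have : (1 - (1 + g) / 2) / ((n : ℝ) + 8) ≤ 1 := by
    rw [div_le_one (by positivity)]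
    have : (0 : ℝ) ≤ n := Nat.cast_nonneg _
    linarith
  linarith

/-- Averaging over all sites. -/
theorem ra_all_pr {n : ℕ} (hn : 0 < n) {r : Fin n → O ≃ O} {s : Fin 4 → V ≃ V}
    {t : Fin 4 → W ≃ W} {g : ℝ}
    (hr : H855.Gap r g) (hs : H855.Gap s g) (ht : H855.Gap t g) (hg0 : 0 ≤ g) (hg1 : g < 1)
    {nbI : Fin 8 → V × W → V × W}
    (hnbI : ∀ k ω, nbI k ω = if h : (k : ℕ) < 4 then (ω.1, t ⟨k, h⟩ ω.2)
      else (s ⟨k - 4, by omega⟩ ω.1, ω.2))
    {w b : O × (V × W) → ℝ} (hw : ∀ ω, 0 ≤ w ω ∧ w ω ≤ 1) (hb : ∀ ω, 0 ≤ b ω ∧ b ω ≤ 1)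
    {l ε β η : ℝ} (hl : 0 < l) (hl1 : l ≤ 1) (hε : 0 ≤ ε) (hη0 : 0 < η)
    (h : pr (fun ω => ¬ |w ω - ((1 - l) * (((∑ k : Fin 8, w (ω.1, nbI k ω.2)) +
      ∑ k : Fin n, w (r k ω.1, ω.2)) / (8 + n)) + l * b ω)| ≤ ε) ≤ β)
    (hη : 2 * (β + ε) ≤ η * l) :
    pr (fun ω => η < |w ω - mean b|) ≤
      8 / (1 - gAll n g) ^ 2 * ((l ^ 2 + β + ε ^ 2) / η ^ 2) := by
  classical
  have : Nonempty (Fin n) := ⟨⟨0, hn⟩⟩
  have hN : (0 : ℝ) < Fintype.card (O × (V × W)) := by exact_mod_cast Fintype.card_pos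
  have h1 : H855.Gap r ((1 + g) / 2) := Q.gap_mono (by linarith) hr
  have h2 : H855.Gap (prodPerm2 r (H855.prodPerm s t)) (gAll n g) := by
    have h3 := gap_prod2 (by linarith) h1 (H855.gap_prod hs ht)
    have e : (1 : ℝ) - (1 - (1 + g) / 2) / (Fintype.card (Fin n) +
        Fintype.card (Fin 4 ⊕ Fin 4)) = gAll n g := by
      unfold gAll
      simp only [Fintype.card_sum, Fintype.card_fin]
      push_cast
      norm_num
    rw [e] at h3
    exact h3
  have havg : ∀ ω, H855.avg (prodPerm2 r (H855.prodPerm s t)) w ω =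
      ((∑ k : Fin 8, w (ω.1, nbI k ω.2)) + ∑ k : Fin n, w (r k ω.1, ω.2)) / (8 + n) := by
    intro ω
    unfold H855.avg
    have eI : (∑ k : Fin 8, w (ω.1, nbI k ω.2)) =
        (∑ k : Fin 4, w (ω.1, (ω.2.1, t k ω.2.2))) + ∑ k : Fin 4, w (ω.1, (s k ω.2.1, ω.2.2)) := by
      have e' : ∀ k : Fin 8, w (ω.1, nbI k ω.2) = w (ω.1, if h : (k : ℕ) < 4 then
        (ω.2.1, t ⟨k, h⟩ ω.2.2) else (s ⟨k - 4, by omega⟩ ω.2.1, ω.2.2)) := fun k => by rw [hnbI]
      rw [Fin.sum_univ_add (a := 4) (b := 4)]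
      congr 1
      · refine Finset.sum_congr rfl fun k _ => ?_
        rw [e']
        have hk : ((Fin.castAdd 4 k : Fin 8) : ℕ) < 4 := by simp
        rw [dif_pos hk]
        rfl
      · refine Finset.sum_congr rfl fun k _ => ?_
        rw [e']
        have hk : ¬ ((Fin.natAdd 4 k : Fin 8) : ℕ) < 4 := by simp
        rw [dif_neg hk]
        congr 3
        congr 2
        ext
        simp
    have f0 : ∀ j, prodPerm2 r (H855.prodPerm s t) (Sum.inl j) ω = (r j ω.1, ω.2) :=
      fun j => rfl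
    have f1 : ∀ j, prodPerm2 r (H855.prodPerm s t) (Sum.inr (Sum.inl j)) ω =
      (ω.1, (s j ω.2.1, ω.2.2)) := fun j => rfl
    have f2 : ∀ j, prodPerm2 r (H855.prodPerm s t) (Sum.inr (Sum.inr j)) ω =
      (ω.1, (ω.2.1, t j ω.2.2)) := fun j => rfl
    rw [eI, Fintype.sum_sum_type, Fintype.sum_sum_type]
    simp only [f0, f1, f2]
    simp only [Fintype.card_sum, Fintype.card_fin]
    push_cast
    rw [add_comm (n : ℝ)]
    congr 1
    ring
  set B : Finset (O × (V × W)) := univ.filter fun ω =>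
    ¬ |w ω - ((1 - l) * (((∑ k : Fin 8, w (ω.1, nbI k ω.2)) +
      ∑ k : Fin n, w (r k ω.1, ω.2)) / (8 + n)) + l * b ω)| ≤ ε with hB
  have hBc : (B.card : ℝ) ≤ β * Fintype.card (O × (V × W)) := by
    have h1 := h
    rw [pr_eq_card, div_le_iff₀ hN] at h1
    refine le_trans (le_of_eq ?_) h1
    rw [hB]
    congr!
  have h3 := H855.resolvent (w := w) (b := b) h2 (gAll_lt n hg1) (gAll_nonneg n hg0)
    hl hl1 hε hw hb B hBc (fun z hz => by
      rw [hB, mem_filter] at hz
      rw [havg]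
      by_contra hc
      exact hz ⟨mem_univ _, hc⟩) hη hη0
  rw [pr_eq_card, div_le_iff₀ hN]
  refine le_trans (le_of_eq ?_) h3
  congr!

end RA

end Vale.Agent.P330.H551
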