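import Vale.Agent.P330.H551.BDefs
import Vale.Agent.P330.H551.BGap

/-!
# Sequences of networks of blocks

The limit of a sequence of networks of blocks with smaller and smaller errors, along an
ultrafilter (compare `Q/AE.lean`).
-/

namespace Vale.Agent.P330.H551

open Finset PCP.AR Filter Topology
open H855 (mean)
open S

/-! ### Sequences of networks -/

variable {N : BSpec}

/-- A sequence of networks with smaller and smaller errors, and an ultrafilter. -/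
structure BLim (N : BSpec) where
  U : Ultrafilter ℕ
  I : ℕ → BInst N
  τ : ℚ
  c : BConst
  ε : ℕ → ℝ
  lam : ℕ → ℝ
  β : ℕ → ℝ
  x : ∀ n, BReg N → (I n).Site → ℝ
  facts : ∀ n, (I n).Facts c
  obeys : ∀ n, (I n).Obeys τ (ε n) (lam n) (β n) (x n)
  ε_pos : ∀ n, 0 < ε n
  ε_lt : ∀ n, ε n < 1 / 100
  ε_lim : Tendsto ε U (𝓝 0)
  β_lim : Tendsto β U (𝓝 0)
  lam_pos : ∀ n, 0 < lam n
  lam_lt : ∀ n, lam n < 1
  lam_lim : Tendsto lam U (𝓝 0)
  ε_lam : Tendsto (fun n => ε n / lam n) U (𝓝 0)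
  β_lam : Tendsto (fun n => β n / lam n) U (𝓝 0)

namespace BLim

variable (A : BLim N)

/-- inner sites -/
abbrev W (n : ℕ) : Type := (A.I n).P × (A.I n).Z

/-- sites of all networks -/
abbrev Pt : Type := Σ n, (A.I n).Om × ((A.I n).P × (A.I n).Z)

/-- almost all sites -/
abbrev F : Filter A.Pt := aef A.U fun n => (A.I n).Om × ((A.I n).P × (A.I n).Z)

/-- outer sites of all networks -/
abbrev PO : Type := Σ n, (A.I n).Om

/-- almost all outer sites -/
abbrev FO : Filter A.PO := aef A.U fun n => (A.I n).Om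

/-- the value of a register at a site -/
abbrev v (ρ : BReg N) (ω : A.Pt) : ℝ := A.x ω.1 ρ ω.2

/-- At almost all sites the register `ρ` has the pure value `b`. -/
def Is (b : A.Pt → Bool) (ρ : BReg N) : Prop := ∀ᶠ ω in A.F, IsB (A.ε ω.1) (b ω) (A.v ρ ω)

variable {A}

theorem v_mem (ρ : BReg N) (ω : A.Pt) : 0 ≤ A.v ρ ω ∧ A.v ρ ω ≤ 1 := (A.obeys ω.1).1 ρ ω.2

/-- Almost all sites obey the network. -/
theorem rel (ρ : BReg N) : ∀ᶠ ω in A.F,
    (bnet N A.τ ρ).Rel (A.I ω.1).sem (A.ε ω.1) (A.lam ω.1) (A.x ω.1) ρ ω.2 :=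
  ae_of_le A.β_lim (Eventually.of_forall fun n => (A.obeys n).2 ρ)

variable (A)

theorem exists_av (ρ : BReg N) : ∃ a, (0 ≤ a ∧ a ≤ 1) ∧
    Tendsto (fun n => mean (A.x n ρ)) A.U (𝓝 a) :=
  exists_lim A.U fun n => ⟨mean_nonneg fun ω => ((A.obeys n).1 ρ ω).1,
    mean_le_one fun ω => ((A.obeys n).1 ρ ω).2⟩

/-- the limit of the averages of a register -/
noncomputable def av (ρ : BReg N) : ℝ := (A.exists_av ρ).choose

theorem av_mem (ρ : BReg N) : 0 ≤ A.av ρ ∧ A.av ρ ≤ 1 := (A.exists_av ρ).choose_spec.1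

theorem tendsto_av (ρ : BReg N) : Tendsto (fun n => mean (A.x n ρ)) A.U (𝓝 (A.av ρ)) :=
  (A.exists_av ρ).choose_spec.2

variable {A}

theorem glob_eq {ρ ρ' : BReg N} (h : bnet N A.τ ρ = .ra none .all ρ') (n : ℕ) :
    pr (fun ω : (A.I n).Site => ¬ |A.x n ρ ω - ((1 - A.lam n) *
      (((∑ k : Fin 8, A.x n ρ (ω.1, (A.I n).nbI k ω.2)) +
        ∑ k : Fin N.nO, A.x n ρ ((A.I n).sO k ω.1, ω.2)) / (8 + N.nO)) + A.lam n * A.x n ρ' ω)| ≤
        (2 * N.nO + 20) * A.ε n) ≤ A.β n := by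
  have h1 := (A.obeys n).2 ρ
  rw [h] at h1
  exact h1

/-- the error terms tend to `0` -/
theorem tendsto_err (C D η : ℝ) : Tendsto (fun n => C * ((A.lam n ^ 2 + A.β n +
    (D * A.ε n) ^ 2) / η ^ 2)) A.U (𝓝 0) := by
  have h : Tendsto (fun n => C * ((A.lam n ^ 2 + A.β n + (D * A.ε n) ^ 2) / η ^ 2)) A.U
      (𝓝 (C * ((0 ^ 2 + 0 + (D * 0) ^ 2) / η ^ 2))) :=
    ((((A.lam_lim.pow 2).add A.β_lim).add ((A.ε_lim.const_mul D).pow 2)).div_const _).const_mul C
  simpa using h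

/-- **Global averages**: at almost all sites the register is close to the limit of the averages. -/
theorem ra_all {ρ ρ' : BReg N} (h : bnet N A.τ ρ = .ra none .all ρ') {η : ℝ} (hη : 0 < η) :
    ∀ᶠ ω in A.F, |A.v ρ ω - A.av ρ'| < η := by
  set D : ℝ := 2 * N.nO + 20 with hD
  have hD0 : 0 < D := by positivity
  have h1 : ∀ᶠ ω in A.F, ¬ η / 2 < |A.v ρ ω - mean (A.x ω.1 ρ')| := by
    refine ae_of_le (tendsto_err (A := A) (8 / (1 - gAll N.nO A.c.g) ^ 2) D (η / 2)) ?_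
    have e1 : ∀ᶠ n in A.U, A.β n / A.lam n < η / 8 :=
      (A.β_lam.eventually (gt_mem_nhds (by positivity : (0 : ℝ) < η / 8)))
    have e2 : ∀ᶠ n in A.U, A.ε n / A.lam n < η / (8 * D) :=
      (A.ε_lam.eventually (gt_mem_nhds (by positivity : (0 : ℝ) < η / (8 * D))))
    filter_upwards [e1, e2] with n hn1 hn2
    have hl := A.lam_pos n
    rw [div_lt_iff₀ hl] at hn1
    rw [div_lt_div_iff₀ hl (by positivity)] at hn2
    have := ra_all_pr N.nO_pos (A.facts n).gapO (A.facts n).gapP (A.facts n).gapZ A.c.g_nonneg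
      A.c.g_lt (nbI := (A.I n).nbI) (fun k ω => rfl)
      (w := A.x n ρ) (b := A.x n ρ') ((A.obeys n).1 ρ) ((A.obeys n).1 ρ') hl
      (A.lam_lt n).le (ε := D * A.ε n) (mul_nonneg hD0.le (A.ε_pos n).le) (half_pos hη)
      (glob_eq h n) (by nlinarith)
    refine le_trans (le_of_eq (pr_congr fun ω => ?_)) this
    exact not_not
  have h2 : ∀ᶠ ω in A.F, |mean (A.x ω.1 ρ') - A.av ρ'| < η / 2 := by
    have h3 : ∀ᶠ n in (A.U : Filter ℕ), |mean (A.x n ρ') - A.av ρ'| < η / 2 := by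
      filter_upwards [Metric.tendsto_nhds.1 (A.tendsto_av ρ') (η / 2) (by linarith)] with n hn
      rwa [Real.dist_eq] at hn
    exact ae_fst (Ω := fun n => (A.I n).Om × ((A.I n).P × (A.I n).Z))
      (Q := fun n => |mean (A.x n ρ') - A.av ρ'| < η / 2) h3
  filter_upwards [h1, h2] with ω g1 g2
  push Not at g1
  have := abs_sub_le (A.v ρ ω) (mean (A.x ω.1 ρ')) (A.av ρ')
  linarith

/-- **Thresholds.** -/
theorem thr {σ ρ : BReg N} {α : ℚ} (h : bnet N A.τ σ = .thr α ρ) {η : ℝ} (hη : 0 < η) :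
    ∀ᶠ ω in A.F, ((α : ℝ) + η < A.v ρ ω → IsB (A.ε ω.1) true (A.v σ ω)) ∧
      (A.v ρ ω < (α : ℝ) - η → IsB (A.ε ω.1) false (A.v σ ω)) := by
  have e2 : ∀ᶠ n in A.U, A.ε n < η / 2 := A.ε_lim.eventually (gt_mem_nhds (half_pos hη))
  filter_upwards [A.rel σ, ae_fst (Ω := fun n => (A.I n).Om × ((A.I n).P × (A.I n).Z)) e2]
    with ω g1 g2
  rw [h] at g1
  exact ⟨fun hc => g1.1 (by linarith), fun hc => g1.2 (by linarith)⟩

/-- thresholds of global averages -/
theorem thr_av_true {σ ρ ρ' : BReg N} {α : ℚ} (h : bnet N A.τ σ = .thr α ρ)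
    (h' : bnet N A.τ ρ = .ra none .all ρ') (hα : (α : ℝ) < A.av ρ') :
    A.Is (fun _ => true) σ := by
  have hη : 0 < (A.av ρ' - α) / 2 := by linarith
  filter_upwards [A.thr h hη, A.ra_all h' hη] with ω g1 g2
  exact g1.1 (by have := (abs_lt.1 g2).1; linarith)

theorem thr_av_false {σ ρ ρ' : BReg N} {α : ℚ} (h : bnet N A.τ σ = .thr α ρ)
    (h' : bnet N A.τ ρ = .ra none .all ρ') (hα : A.av ρ' < (α : ℝ)) :
    A.Is (fun _ => false) σ := by
  have hη : 0 < (α - A.av ρ') / 2 := by linarith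
  filter_upwards [A.thr h hη, A.ra_all h' hη] with ω g1 g2
  exact g1.2 (by have := (abs_lt.1 g2).2; linarith)

theorem th_true {i : Fin 3} {l : Fin 5} (h : (((l : ℕ) + 1 : ℝ)) / 6 < A.av (.q i)) :
    A.Is (fun _ => true) (.th i l) :=
  thr_av_true (α := ((l : ℕ) + 1 : ℚ) / 6) (ρ := .qa i) rfl rfl (by push_cast; exact h)

theorem th_false {i : Fin 3} {l : Fin 5} (h : A.av (.q i) < (((l : ℕ) + 1 : ℝ)) / 6) :
    A.Is (fun _ => false) (.th i l) :=
  thr_av_false (α := ((l : ℕ) + 1 : ℚ) / 6) (ρ := .qa i) rfl rfl (by push_cast; exact h)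

theorem tf_true {k : Tst} (h : (A.τ : ℝ) < A.av (.t k)) : A.Is (fun _ => true) (.tf k) :=
  thr_av_true (ρ := .ta k) rfl rfl h

theorem tf_false {k : Tst} (h : A.av (.t k) < (A.τ : ℝ)) : A.Is (fun _ => false) (.tf k) :=
  thr_av_false (ρ := .ta k) rfl rfl h

/-- a pure register: the mean is the mean of the bits -/
theorem mean_of_is {ρ : BReg N} {b : A.Pt → Bool} (h : A.Is b ρ) :
    Tendsto (fun n => mean (A.x n ρ) -
      mean (fun ω : (A.I n).Site => if b ⟨n, ω⟩ then (1 : ℝ) else 0)) A.U (𝓝 0) := by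
  refine tendsto_mean_sub (f := A.v ρ) (g := fun ω => if b ω then (1 : ℝ) else 0)
    (v_mem ρ) (fun ω => by split_ifs <;> norm_num) fun η hη => ?_
  have e2 : ∀ᶠ n in A.U, A.ε n < η := A.ε_lim.eventually (gt_mem_nhds hη)
  filter_upwards [h, ae_fst (Ω := fun n => (A.I n).Om × ((A.I n).P × (A.I n).Z)) e2] with ω g1 g2
  exact (S.Lim.abs_sub_le_of_isB (A.ε_pos _).le (v_mem ρ ω) g1).trans g2.le

theorem av_of_is_true {ρ : BReg N} (h : A.Is (fun _ => true) ρ) : A.av ρ = 1 := by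
  have h1 := mean_of_is h
  simp only [if_true] at h1
  have h2 := (A.tendsto_av ρ).sub h1
  have h3 : Tendsto (fun n => mean (A.x n ρ) - (mean (A.x n ρ) -
      mean (fun _ : (A.I n).Site => (1 : ℝ)))) A.U (𝓝 1) := by
    refine tendsto_const_nhds.congr fun n => ?_
    rw [mean_const]
    ring
  rw [sub_zero] at h2
  exact tendsto_nhds_unique h2 h3

theorem av_of_is_false {ρ : BReg N} (h : A.Is (fun _ => false) ρ) : A.av ρ = 0 := by
  have h1 := mean_of_is h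
  simp only [Bool.false_eq_true, if_false] at h1
  have h2 := (A.tendsto_av ρ).sub h1
  have h3 : Tendsto (fun n => mean (A.x n ρ) - (mean (A.x n ρ) -
      mean (fun _ : (A.I n).Site => (0 : ℝ)))) A.U (𝓝 0) := by
    refine tendsto_const_nhds.congr fun n => ?_
    rw [mean_const]
    ring
  rw [sub_zero] at h2
  exact tendsto_nhds_unique h2 h3

/-- the fraction of the sites with the pure value `1` is at most the average -/
theorem pr_true_le (ρ : BReg N) {η : ℝ} (hη : 0 < η) :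
    ∀ᶠ n in A.U, pr (fun ω => IsB (A.ε n) true (A.x n ρ ω)) ≤ A.av ρ + η := by
  have e1 : ∀ᶠ n in A.U, A.ε n < η / 2 := A.ε_lim.eventually (gt_mem_nhds (half_pos hη))
  have e2 : ∀ᶠ n in A.U, mean (A.x n ρ) < A.av ρ + η / 2 :=
    (A.tendsto_av ρ).eventually (gt_mem_nhds (by linarith))
  filter_upwards [e1, e2] with n h1 h2
  have h3 := mul_pr_le_mean (f := A.x n ρ) (p := fun ω => IsB (A.ε n) true (A.x n ρ ω))
    (c := 1 - A.ε n) (fun ω => ((A.obeys n).1 ρ ω).1) fun ω hω => hω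
  have h4 := pr_le_one (fun ω => IsB (A.ε n) true (A.x n ρ ω))
  have h5 := A.ε_pos n
  have h6 := pr_nonneg (fun ω => IsB (A.ε n) true (A.x n ρ ω))
  nlinarith

/-- the average is at most the fraction of the sites which do not have the pure value `0` -/
theorem av_le_pr (ρ : BReg N) {η : ℝ} (hη : 0 < η) :
    ∀ᶠ n in A.U, A.av ρ - η ≤ pr (fun ω => ¬ IsB (A.ε n) false (A.x n ρ ω)) := by
  have e1 : ∀ᶠ n in A.U, A.ε n < η / 2 := A.ε_lim.eventually (gt_mem_nhds (half_pos hη))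
  have e2 : ∀ᶠ n in A.U, A.av ρ - η / 2 < mean (A.x n ρ) :=
    (A.tendsto_av ρ).eventually (lt_mem_nhds (by linarith))
  filter_upwards [e1, e2] with n h1 h2
  have h3 := abs_mean_sub_le (f := A.x n ρ) (g := fun _ => (0 : ℝ)) (η := A.ε n) (A.ε_pos n).le
    ((A.obeys n).1 ρ) (fun _ => by norm_num)
  rw [mean_const, sub_zero, abs_of_nonneg (mean_nonneg fun ω => ((A.obeys n).1 ρ ω).1)] at h3
  have h4 : pr (fun ω => ¬ |A.x n ρ ω - 0| ≤ A.ε n) ≤
      pr (fun ω => ¬ IsB (A.ε n) false (A.x n ρ ω)) :=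
    pr_mono fun ω hω hc => hω (by
      rw [sub_zero, abs_of_nonneg ((A.obeys n).1 ρ ω).1]
      exact hc)
  linarith

theorem le_av_of_pr {ρ : BReg N} {c : ℝ}
    (h : ∀ᶠ n in A.U, c ≤ pr (fun ω => IsB (A.ε n) true (A.x n ρ ω))) : c ≤ A.av ρ := by
  refine le_of_forall_pos_le_add fun η hη => ?_
  obtain ⟨n, h1, h2⟩ := (h.and (A.pr_true_le ρ hη)).exists
  exact h1.trans h2

theorem av_le_of_pr {ρ : BReg N} {c : ℝ}
    (h : ∀ᶠ n in A.U, pr (fun ω => ¬ IsB (A.ε n) false (A.x n ρ ω)) ≤ c) : A.av ρ ≤ c := by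
  refine le_of_forall_pos_le_add fun η hη => ?_
  obtain ⟨n, h1, h2⟩ := (h.and (A.av_le_pr ρ hη)).exists
  linarith

end BLim

end Vale.Agent.P330.H551
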