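import Vale.Agent.P330.H551.BMod

/-!
# Contraction in a network of blocks

The fraction of the outer sites at which a stream of blocks is wrong shrinks by the factor `c0` in
every stage of `hold`; joint contraction of the registers that hold their contents.
-/

namespace Vale.Agent.P330.H551

open Filter PCP.AR Topology
open S (IsB Tst aef ae_iff ae_of_le ae_of_small ae_pr_lt ae_fst ae_fiber pr_eq_card pr_exists_le)

variable {N : BSpec}

theorem pr_mem {Ω : Type} [Fintype Ω] (B : Finset Ω) :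
    pr (fun h => h ∈ B) = (B.card : ℝ) / Fintype.card Ω := by
  classical
  rw [pr_eq_card]
  congr 2
  have : Finset.univ.filter (fun h => h ∈ B) = B := by
    ext h
    simp
  convert congrArg Finset.card this

/-- the output of the stage `j` of `hold` -/
def hout (z : Bool) (j : Fin (N.r + 1)) (l : N.L) : BReg N := .hold z j (N.hold.out l)

namespace BLim

variable (A : BLim N)

/-- sequences of configurations -/
abbrev Cfg : Type := ∀ n, (A.I n).Cf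

/-- next configurations -/
def stp (z : Bool) (w : A.Cfg) : A.Cfg := fun n => (A.I n).sys.step z (w n)

/-- The stream `f` is right at the site. -/
def SRt (f : N.L → BReg N) (w : A.Cfg) (ω : A.Pt) : Prop :=
  Rt (A.I ω.1) (A.ε ω.1) (A.x ω.1) f (w ω.1) ω.2

/-- the fraction of the outer sites at which the stream `f` is not `ρ`-near the word of `w` -/
noncomputable def bad (ρ : ℝ) (f : N.L → BReg N) (w : A.Cfg) (n : ℕ) : ℝ :=
  pr fun h : (A.I n).Om => ¬ (A.I n).Clean (A.ε n) ρ ((A.I n).sys.word (w n) h)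
    ((A.I n).str (A.x n) f h)

/-- At almost all outer sites the stream `f` is `ρ`-near the word of `w`. -/
def Cln (ρ : ℝ) (f : N.L → BReg N) (w : A.Cfg) : Prop :=
  ∀ᶠ h in A.FO, (A.I h.1).Clean (A.ε h.1) ρ ((A.I h.1).sys.word (w h.1) h.2)
    ((A.I h.1).str (A.x h.1) f h.2)

/-- The standing assumptions. -/
structure Par (A : BLim N) (ρ : ℝ) : Prop where
  ρ_pos : 0 < ρ
  ρ_le : 5 * ρ ≤ A.c.ρin
  hold : ∀ z j, ∀ᶠ h in A.FO, A.HoldOK A.c.ρin ρ z j h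
  step : ∀ z, ∀ᶠ h in A.FO, A.StepOK A.c.ρin ρ z h
  con : ((N.k : ℝ) + 1) * A.c.c0 ^ (N.r + 1) ≤ 1 / 4

variable {A}

theorem bad_nonneg (ρ : ℝ) (f : N.L → BReg N) (w : A.Cfg) (n : ℕ) : 0 ≤ A.bad ρ f w n :=
  pr_nonneg _

theorem bad_mono {ρ ρ' : ℝ} (h : ρ ≤ ρ') (f : N.L → BReg N) (w : A.Cfg) (n : ℕ) :
    A.bad ρ' f w n ≤ A.bad ρ f w n :=
  pr_mono fun _ hh hc => hh (clean_mono h hc)

theorem cln_iff {ρ : ℝ} {f : N.L → BReg N} {w : A.Cfg} :
    A.Cln ρ f w ↔ ∀ δ : ℝ, 0 < δ → ∀ᶠ n in (A.U : Filter ℕ), A.bad ρ f w n ≤ δ :=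
  ⟨fun h _ hδ => (ae_pr_lt h hδ).mono fun _ hn => le_of_lt hn, fun h => ae_of_small h⟩

theorem Cln.mono {ρ ρ' : ℝ} (hρ : ρ ≤ ρ') {f : N.L → BReg N} {w : A.Cfg} (h : A.Cln ρ f w) :
    A.Cln ρ' f w := Eventually.mono h fun _ hh => clean_mono hρ hh

theorem cln_of_srt {ρ : ℝ} (hρ : 0 < ρ) {f : N.L → BReg N} {w : A.Cfg}
    (h : ∀ᶠ ω in A.F, A.SRt f w ω) : A.Cln ρ f w := by
  have h1 := ae_fiber (A := fun n => (A.I n).Om) (B := fun n => (A.I n).P × (A.I n).Z) h hρ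
  filter_upwards [h1] with h g1
  rw [clean_iff]
  exact le_of_lt g1

/-! ### The stages of `hold` and the step -/

/-- One stage of `hold`. -/
theorem hold_bad {ρ : ℝ} {z : Bool} {j : Fin (N.r + 1)}
    (HO : ∀ᶠ h in A.FO, A.HoldOK A.c.ρin ρ z j h) {δ : ℝ} (hδ : 0 < δ) (w : A.Cfg) :
    ∀ᶠ n in (A.U : Filter ℕ), A.bad A.c.ρin (hin z j) w n ≤ A.c.ρ₁ →
      A.bad ρ (hout z j) w n ≤ A.c.c0 * A.bad A.c.ρin (hin z j) w n + δ := by
  classical
  filter_upwards [ae_pr_lt HO hδ] with n h1 h2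
  have hN : (0 : ℝ) < Fintype.card (A.I n).Om := by exact_mod_cast Fintype.card_pos
  set B : Finset (A.I n).Om := Finset.univ.filter fun h =>
    ¬ (A.I n).Clean (A.ε n) A.c.ρin ((A.I n).sys.word (w n) h)
      ((A.I n).str (A.x n) (hin z j) h) with hB
  have hBm : ∀ h, h ∈ B ↔ ¬ (A.I n).Clean (A.ε n) A.c.ρin ((A.I n).sys.word (w n) h)
      ((A.I n).str (A.x n) (hin z j) h) := fun h => by
    rw [hB, Finset.mem_filter]
    simp
  have hBc : A.bad A.c.ρin (hin z j) w n = (B.card : ℝ) / Fintype.card (A.I n).Om := by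
    rw [← pr_mem]
    exact pr_congr fun h => (hBm h).symm
  have hB1 : (B.card : ℝ) ≤ A.c.ρ₁ * Fintype.card (A.I n).Om := by
    rw [hBc, div_le_iff₀ hN] at h2
    exact h2
  obtain ⟨B', hB', hc⟩ := (A.facts n).dyn.contract B hB1
  have h3 : pr (fun h => h ∈ B') ≤ A.c.c0 * A.bad A.c.ρin (hin z j) w n := by
    rw [pr_mem, hBc, ← mul_div_assoc]
    exact div_le_div_of_nonneg_right hB' hN.le
  have h4 : A.bad ρ (hout z j) w n ≤ pr (fun h : (A.I n).Om => h ∈ B') +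
      pr (fun h : (A.I n).Om => ¬ A.HoldOK A.c.ρin ρ z j ⟨n, h⟩) := by
    refine le_trans (pr_mono fun h hh => ?_) (pr_or _ _)
    by_contra hcon
    push Not at hcon
    obtain ⟨g1, g2⟩ := hcon
    refine hh (g2 (fun i => if (A.I n).sys.wr i h ∈ B then none else
      some ((A.I n).sys.word (w n) ((A.I n).sys.wr i h))) _ (fun i s hs => ?_) fun X hX => ?_)
    · by_cases hi : (A.I n).sys.wr i h ∈ B
      · rw [if_pos hi] at hs
        exact absurd hs (by simp)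
      · rw [if_neg hi, Option.some.injEq] at hs
        rw [hBm, not_not, hs] at hi
        exact hi
    · refine hc h g1 (w n) X fun i hi => hX i _ ?_
      rw [if_neg hi]
  linarith

theorem hin_zero (z : Bool) (h : 0 < N.r + 1) : hin (N := N) z ⟨0, h⟩ = .x z := by
  funext l
  simp [hin]

theorem hin_succ (z : Bool) (j : ℕ) (h : j + 1 < N.r + 1) :
    hin (N := N) z ⟨j + 1, h⟩ = hout z ⟨j, by omega⟩ := by
  funext l
  simp [hin, hout]

/-- All stages of `hold`. -/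
theorem chain_bad {ρ : ℝ} (P : A.Par ρ) (z : Bool) (w : A.Cfg) (j : ℕ) :
    ∀ (hj : j < N.r + 1) (δ : ℝ), 0 < δ → ∀ᶠ n in (A.U : Filter ℕ),
      A.bad A.c.ρin (.x z) w n ≤ A.c.ρ₁ / 2 →
      A.bad ρ (hout z ⟨j, hj⟩) w n ≤ A.c.c0 ^ (j + 1) * A.bad A.c.ρin (.x z) w n + δ := by
  have hρ1 := A.c.ρ₁_pos
  have hc0 := A.c.c0_nonneg
  have hc1 := A.c.c0_le
  induction j with
  | zero =>
    intro hj δ hδ
    filter_upwards [hold_bad (P.hold z ⟨0, hj⟩) hδ w] with n h1 h2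
    rw [hin_zero] at h1
    rw [zero_add, pow_one]
    exact h1 (by linarith)
  | succ j ih =>
    intro hj δ hδ
    have hδ' : 0 < min (δ / 2) (A.c.ρ₁ / 2) := lt_min (half_pos hδ) (half_pos hρ1)
    filter_upwards [hold_bad (P.hold z ⟨j + 1, hj⟩) hδ' w, ih (by omega) _ hδ'] with n h1 h2 h3
    have h4 := h2 h3
    rw [hin_succ] at h1
    have h5 := bad_mono (A := A) (ρ := ρ) (ρ' := A.c.ρin)
      (by have := P.ρ_le; have := P.ρ_pos; linarith) (hout z ⟨j, by omega⟩) w n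
    have h6 := bad_nonneg (A := A) A.c.ρin (.x z) w n
    have h7 : A.c.c0 ^ (j + 1) ≤ 1 := pow_le_one₀ hc0 hc1
    have h7' : 0 ≤ A.c.c0 ^ (j + 1) := pow_nonneg hc0 _
    have h8 : A.c.c0 ^ (j + 1) * A.bad A.c.ρin (.x z) w n ≤ A.bad A.c.ρin (.x z) w n := by
      nlinarith
    have h9 := min_le_left (δ / 2) (A.c.ρ₁ / 2)
    have h10 := min_le_right (δ / 2) (A.c.ρ₁ / 2)
    have h11 := h1 (by linarith)
    have h12 : A.c.c0 * A.bad A.c.ρin (hout z ⟨j, by omega⟩) w n ≤ A.c.c0 *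
        (A.c.c0 ^ (j + 1) * A.bad A.c.ρin (.x z) w n + min (δ / 2) (A.c.ρ₁ / 2)) :=
      mul_le_mul_of_nonneg_left (h5.trans h4) hc0
    have h13 : A.c.c0 * min (δ / 2) (A.c.ρ₁ / 2) ≤ min (δ / 2) (A.c.ρ₁ / 2) := by
      nlinarith
    calc A.bad ρ (hout z ⟨j + 1, hj⟩) w n ≤ A.c.c0 * A.bad A.c.ρin (hout z ⟨j, by omega⟩) w n +
          min (δ / 2) (A.c.ρ₁ / 2) := h11
      _ ≤ A.c.c0 * (A.c.c0 ^ (j + 1) * A.bad A.c.ρin (.x z) w n) + 2 * min (δ / 2) (A.c.ρ₁ / 2) := by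
          rw [mul_add] at h12
          linarith
      _ = A.c.c0 ^ (j + 1 + 1) * A.bad A.c.ρin (.x z) w n + 2 * min (δ / 2) (A.c.ρ₁ / 2) := by
          ring
      _ ≤ _ := by linarith

theorem hN_eq (z : Bool) : hN (N := N) z = hout z ⟨N.r, by omega⟩ := rfl

/-- The corrected stream. -/
theorem hN_bad {ρ : ℝ} (P : A.Par ρ) (z : Bool) (w : A.Cfg) {δ : ℝ} (hδ : 0 < δ) :
    ∀ᶠ n in (A.U : Filter ℕ), A.bad A.c.ρin (.x z) w n ≤ A.c.ρ₁ / 2 →
      A.bad ρ (hN z) w n ≤ A.c.c0 ^ (N.r + 1) * A.bad A.c.ρin (.x z) w n + δ := by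
  rw [hN_eq]
  exact chain_bad P z w N.r (by omega) δ hδ

/-- The stream of the next configuration. -/
theorem aN_bad {ρ : ℝ} (P : A.Par ρ) (z : Bool) (w : A.Cfg)
    (hv : ∀ᶠ n in (A.U : Filter ℕ), (A.I n).sys.Valid (w n)) {δ : ℝ} (hδ : 0 < δ) :
    ∀ᶠ n in (A.U : Filter ℕ),
      A.bad ρ (aN z) (A.stp z w) n ≤ N.k * A.bad A.c.ρin (hN z) w n + δ := by
  filter_upwards [ae_pr_lt (P.step z) hδ, hv] with n h1 h2
  have h3 : pr (fun h : (A.I n).Om => ∃ i : Fin N.k, ¬ (A.I n).Clean (A.ε n) A.c.ρin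
      ((A.I n).sys.word (w n) ((A.I n).sys.wr i h))
      ((A.I n).str (A.x n) (hN z) ((A.I n).sys.wr i h))) ≤
      Fintype.card (Fin N.k) * A.bad A.c.ρin (hN z) w n :=
    pr_exists_le (fun (i : Fin N.k) (h : (A.I n).Om) => ¬ (A.I n).Clean (A.ε n) A.c.ρin
      ((A.I n).sys.word (w n) ((A.I n).sys.wr i h))
      ((A.I n).str (A.x n) (hN z) ((A.I n).sys.wr i h))) _ fun i =>
      (pr_equiv ((A.I n).sys.wr i) fun h => ¬ (A.I n).Clean (A.ε n) A.c.ρin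
        ((A.I n).sys.word (w n) h) ((A.I n).str (A.x n) (hN z) h)).le
  rw [Fintype.card_fin] at h3
  have h4 : A.bad ρ (aN z) (A.stp z w) n ≤
      pr (fun h : (A.I n).Om => ∃ i : Fin N.k, ¬ (A.I n).Clean (A.ε n) A.c.ρin
        ((A.I n).sys.word (w n) ((A.I n).sys.wr i h))
        ((A.I n).str (A.x n) (hN z) ((A.I n).sys.wr i h))) +
      pr (fun h : (A.I n).Om => ¬ A.StepOK A.c.ρin ρ z ⟨n, h⟩) := by
    refine le_trans (pr_mono fun h hh => ?_) (pr_or _ _)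
    by_contra hcon
    push Not at hcon
    obtain ⟨g1, g2⟩ := hcon
    have g3 := g2 (fun i => (A.I n).sys.word (w n) ((A.I n).sys.wr i h)) g1
    rw [(A.facts n).dyn.phi_word z (w n) h2 h] at g3
    exact hh g3
  linarith

theorem hN_cln {ρ : ℝ} (P : A.Par ρ) {z : Bool} {w : A.Cfg} (h : A.Cln (5 * ρ) (.x z) w) :
    A.Cln ρ (hN z) w := by
  rw [cln_iff] at h ⊢
  intro δ hδ
  have hρ1 := A.c.ρ₁_pos
  have hc0 := A.c.c0_nonneg
  filter_upwards [hN_bad P z w (half_pos hδ), h (min (δ / 2) (A.c.ρ₁ / 2))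
    (lt_min (half_pos hδ) (half_pos hρ1))] with n h1 h2
  have h3 := bad_mono (A := A) P.ρ_le (.x z) w n
  have h4 := h1 (by have := min_le_right (δ / 2) (A.c.ρ₁ / 2); linarith)
  have h5 : A.c.c0 ^ (N.r + 1) ≤ 1 := pow_le_one₀ hc0 A.c.c0_le
  have h6 := bad_nonneg (A := A) A.c.ρin (.x z) w n
  have h7 := min_le_left (δ / 2) (A.c.ρ₁ / 2)
  nlinarith [pow_nonneg hc0 (N.r + 1)]

theorem aN_cln {ρ : ℝ} (P : A.Par ρ) {z : Bool} {w : A.Cfg}
    (hv : ∀ᶠ n in (A.U : Filter ℕ), (A.I n).sys.Valid (w n)) (h : A.Cln (5 * ρ) (.x z) w) :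
    A.Cln ρ (aN z) (A.stp z w) := by
  have h0 := (hN_cln P h).mono (ρ' := A.c.ρin) (by have := P.ρ_le; have := P.ρ_pos; linarith)
  rw [cln_iff] at h0 ⊢
  intro δ hδ
  have hk : (0 : ℝ) < (N.k : ℝ) + 1 := by positivity
  filter_upwards [aN_bad P z w hv (half_pos hδ), h0 (δ / (2 * (N.k + 1))) (by positivity)]
    with n h1 h2
  rw [le_div_iff₀ (by positivity)] at h2
  have h6 := bad_nonneg (A := A) A.c.ρin (hN z) w n
  nlinarith

/-! ### Transfer -/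

/-- If a stream is right wherever the corrected streams (and the streams of the next
configurations) are right, then it is near wherever they are near. -/
theorem transfer {ρ : ℝ} (hρ : 0 < ρ) (Z Y : Finset Bool) (w w' : Bool → A.Cfg)
    {g : N.L → BReg N} {v : A.Cfg}
    (H : ∀ᶠ ω in A.F, (∀ z ∈ Z, A.SRt (hN z) (w z) ω) → (∀ z ∈ Y, A.SRt (aN z) (w' z) ω) →
      A.SRt g v ω) {δ : ℝ} (hδ : 0 < δ) :
    ∀ᶠ n in (A.U : Filter ℕ), ∀ a b : ℝ, 0 ≤ a → 0 ≤ b →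
      (∀ z ∈ Z, A.bad ρ (hN z) (w z) n ≤ a) → (∀ z ∈ Y, A.bad ρ (aN z) (w' z) n ≤ b) →
      A.bad (5 * ρ) g v n ≤ 2 * a + 2 * b + δ := by
  classical
  have h1 := ae_fiber (A := fun n => (A.I n).Om) (B := fun n => (A.I n).P × (A.I n).Z) H hρ
  filter_upwards [ae_pr_lt h1 hδ] with n g1 a b ha0 hb0 ha hb
  have hcard : ∀ Z : Finset Bool, (Z.card : ℝ) ≤ 2 := fun Z => by
    have := Finset.card_le_univ Z
    simp at this
    exact_mod_cast this
  have e1 := MLT.pr_union Z (fun z (h : (A.I n).Om) => ¬ (A.I n).Clean (A.ε n) ρ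
    ((A.I n).sys.word (w z n) h) ((A.I n).str (A.x n) (hN z) h)) a ha
  have e2 := MLT.pr_union Y (fun z (h : (A.I n).Om) => ¬ (A.I n).Clean (A.ε n) ρ
    ((A.I n).sys.word (w' z n) h) ((A.I n).str (A.x n) (aN z) h)) b hb
  have e3 : (Z.card : ℝ) * a ≤ 2 * a := mul_le_mul_of_nonneg_right (hcard Z) ha0
  have e4 : (Y.card : ℝ) * b ≤ 2 * b := mul_le_mul_of_nonneg_right (hcard Y) hb0
  have e5 : A.bad (5 * ρ) g v n ≤
      pr (fun h : (A.I n).Om => ∃ z ∈ Z, ¬ (A.I n).Clean (A.ε n) ρ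
        ((A.I n).sys.word (w z n) h) ((A.I n).str (A.x n) (hN z) h)) +
      (pr (fun h : (A.I n).Om => ∃ z ∈ Y, ¬ (A.I n).Clean (A.ε n) ρ
        ((A.I n).sys.word (w' z n) h) ((A.I n).str (A.x n) (aN z) h)) +
      pr (fun h : (A.I n).Om => ¬ pr (fun y : (A.I n).P × (A.I n).Z =>
        ¬ ((∀ z ∈ Z, A.SRt (hN z) (w z) ⟨n, (h, y)⟩) →
          (∀ z ∈ Y, A.SRt (aN z) (w' z) ⟨n, (h, y)⟩) → A.SRt g v ⟨n, (h, y)⟩)) < ρ)) := by
    refine le_trans (pr_mono fun h hh => ?_) ((pr_or _ _).trans (add_le_add le_rfl (pr_or _ _)))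
    by_contra hcon
    rw [not_or, not_or, not_not] at hcon
    obtain ⟨c1, c2, c3⟩ := hcon
    push Not at c1 c2
    apply hh
    rw [clean_iff]
    have f1 := MLT.pr_union Z (fun z (y : (A.I n).P × (A.I n).Z) =>
      ¬ Rt (A.I n) (A.ε n) (A.x n) (hN z) (w z n) (h, y)) ρ fun z hz => clean_iff.1 (c1 z hz)
    have f2 := MLT.pr_union Y (fun z (y : (A.I n).P × (A.I n).Z) =>
      ¬ Rt (A.I n) (A.ε n) (A.x n) (aN z) (w' z n) (h, y)) ρ fun z hz => clean_iff.1 (c2 z hz)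
    have f3 : (Z.card : ℝ) * ρ ≤ 2 * ρ := mul_le_mul_of_nonneg_right (hcard Z) hρ.le
    have f4 : (Y.card : ℝ) * ρ ≤ 2 * ρ := mul_le_mul_of_nonneg_right (hcard Y) hρ.le
    have f5 : pr (fun y : (A.I n).P × (A.I n).Z => ¬ Rt (A.I n) (A.ε n) (A.x n) g (v n) (h, y)) ≤
        pr (fun y : (A.I n).P × (A.I n).Z => ∃ z ∈ Z,
          ¬ Rt (A.I n) (A.ε n) (A.x n) (hN z) (w z n) (h, y)) +
        (pr (fun y : (A.I n).P × (A.I n).Z => ∃ z ∈ Y,
          ¬ Rt (A.I n) (A.ε n) (A.x n) (aN z) (w' z n) (h, y)) +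
        pr (fun y : (A.I n).P × (A.I n).Z =>
          ¬ ((∀ z ∈ Z, A.SRt (hN z) (w z) ⟨n, (h, y)⟩) →
            (∀ z ∈ Y, A.SRt (aN z) (w' z) ⟨n, (h, y)⟩) → A.SRt g v ⟨n, (h, y)⟩))) := by
      refine le_trans (pr_mono fun y hy => ?_) ((pr_or _ _).trans
        (add_le_add le_rfl (pr_or _ _)))
      by_contra hcon
      push Not at hcon
      obtain ⟨d1, d2, d3⟩ := hcon
      exact hy (d3 d1 d2)
    linarith
  linarith

theorem cln_transfer {ρ : ℝ} (hρ : 0 < ρ) (Z Y : Finset Bool) (w w' : Bool → A.Cfg)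
    {g : N.L → BReg N} {v : A.Cfg}
    (H : ∀ᶠ ω in A.F, (∀ z ∈ Z, A.SRt (hN z) (w z) ω) → (∀ z ∈ Y, A.SRt (aN z) (w' z) ω) →
      A.SRt g v ω) (hZ : ∀ z ∈ Z, A.Cln ρ (hN z) (w z)) (hY : ∀ z ∈ Y, A.Cln ρ (aN z) (w' z)) :
    A.Cln (5 * ρ) g v := by
  rw [cln_iff]
  intro δ hδ
  have h1 : ∀ᶠ n in (A.U : Filter ℕ), ∀ z ∈ Z, A.bad ρ (hN z) (w z) n ≤ δ / 6 := by
    rw [Filter.eventually_all_finset]
    exact fun z hz => cln_iff.1 (hZ z hz) _ (by positivity)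
  have h2 : ∀ᶠ n in (A.U : Filter ℕ), ∀ z ∈ Y, A.bad ρ (aN z) (w' z) n ≤ δ / 6 := by
    rw [Filter.eventually_all_finset]
    exact fun z hz => cln_iff.1 (hY z hz) _ (by positivity)
  filter_upwards [transfer hρ Z Y w w' H (δ := δ / 6) (by positivity), h1, h2] with n g1 g2 g3
  have := g1 (δ / 6) (δ / 6) (by positivity) (by positivity) g2 g3
  linarith

/-! ### Joint contraction -/

/-- **Joint contraction.** -/
theorem joint {ρ : ℝ} (P : A.Par ρ) (Z Y : Finset Bool) (hYZ : Y ⊆ Z) (w : Bool → A.Cfg)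
    (hv : ∀ z ∈ Y, ∀ᶠ n in (A.U : Filter ℕ), (A.I n).sys.Valid (w z n))
    (hn : ∀ z ∈ Z, ∀ᶠ n in (A.U : Filter ℕ), A.bad A.c.ρin (.x z) (w z) n ≤ A.c.ρ₁ / 2)
    (H : ∀ z ∈ Z, ∀ᶠ ω in A.F, (∀ z' ∈ Z, A.SRt (hN z') (w z') ω) →
      (∀ z' ∈ Y, A.SRt (aN z') (A.stp z' (w z')) ω) → A.SRt (.x z) (w z) ω) :
    ∀ z ∈ Z, A.Cln (5 * ρ) (.x z) (w z) := by
  classical
  have key : ∀ δ : ℝ, 0 < δ → ∀ᶠ n in (A.U : Filter ℕ), ∀ z ∈ Z,
      A.bad (5 * ρ) (.x z) (w z) n ≤ δ := by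
    intro δ hδ
    set k : ℝ := (N.k : ℝ) with hk
    have hk0 : 0 ≤ k := Nat.cast_nonneg _
    set δ' : ℝ := δ / (4 * k + 10) with hδ'
    have hd : 0 < δ' := by positivity
    have hd2 : δ' * (4 * k + 10) = δ := by
      rw [hδ']
      field_simp
    have e1 : ∀ᶠ n in (A.U : Filter ℕ), ∀ z ∈ Z, A.bad A.c.ρin (.x z) (w z) n ≤ A.c.ρ₁ / 2 := by
      rw [Filter.eventually_all_finset]
      exact hn
    have e2 : ∀ᶠ n in (A.U : Filter ℕ), ∀ z ∈ Z, A.bad A.c.ρin (.x z) (w z) n ≤ A.c.ρ₁ / 2 →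
        A.bad ρ (hN z) (w z) n ≤ A.c.c0 ^ (N.r + 1) * A.bad A.c.ρin (.x z) (w z) n + δ' := by
      rw [Filter.eventually_all_finset]
      exact fun z _ => hN_bad P z (w z) hd
    have e3 : ∀ᶠ n in (A.U : Filter ℕ), ∀ z ∈ Y,
        A.bad ρ (aN z) (A.stp z (w z)) n ≤ N.k * A.bad A.c.ρin (hN z) (w z) n + δ' := by
      rw [Filter.eventually_all_finset]
      exact fun z hz => aN_bad P z (w z) (hv z hz) hd
    have e4 : ∀ᶠ n in (A.U : Filter ℕ), ∀ z ∈ Z, ∀ a b : ℝ, 0 ≤ a → 0 ≤ b →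
        (∀ z ∈ Z, A.bad ρ (hN z) (w z) n ≤ a) →
        (∀ z ∈ Y, A.bad ρ (aN z) (A.stp z (w z)) n ≤ b) →
        A.bad (5 * ρ) (.x z) (w z) n ≤ 2 * a + 2 * b + δ' := by
      rw [Filter.eventually_all_finset]
      exact fun z hz => transfer P.ρ_pos Z Y w (fun z => A.stp z (w z)) (H z hz) hd
    filter_upwards [e1, e2, e3, e4] with n g1 g2 g3 g4
    intro z hz
    obtain ⟨z0, hz0, hmax⟩ := Finset.exists_max_image Z
      (fun z => A.bad A.c.ρin (.x z) (w z) n) ⟨z, hz⟩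
    set s : ℝ := A.bad A.c.ρin (.x z0) (w z0) n with hs
    have hs0 : 0 ≤ s := bad_nonneg _ _ _ _
    set c : ℝ := A.c.c0 ^ (N.r + 1) with hc
    have hc0 : 0 ≤ c := pow_nonneg A.c.c0_nonneg _
    have hcc : (k + 1) * c ≤ 1 / 4 := P.con
    have ha : ∀ z ∈ Z, A.bad ρ (hN z) (w z) n ≤ c * s + δ' := fun z hz => by
      have h1 := g2 z hz (g1 z hz)
      have h2 := mul_le_mul_of_nonneg_left (hmax z hz) hc0
      linarith
    have hb : ∀ z ∈ Y, A.bad ρ (aN z) (A.stp z (w z)) n ≤ k * (c * s + δ') + δ' := fun z hz => by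
      have h1 := g3 z hz
      have h2 := ha z (hYZ hz)
      have h3 := bad_mono (A := A) (ρ := ρ) (ρ' := A.c.ρin)
        (by have := P.ρ_le; have := P.ρ_pos; linarith) (hN z) (w z) n
      have h4 : k * A.bad A.c.ρin (hN z) (w z) n ≤ k * (c * s + δ') :=
        mul_le_mul_of_nonneg_left (h3.trans h2) hk0
      linarith
    have hcs : 0 ≤ c * s := mul_nonneg hc0 hs0
    have hfin : ∀ z ∈ Z, A.bad (5 * ρ) (.x z) (w z) n ≤ s / 2 + (2 * k + 5) * δ' := fun z hz => by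
      have h1 := g4 z hz (c * s + δ') (k * (c * s + δ') + δ') (by linarith)
        (by positivity) ha hb
      have h2 : 2 * (c * s + δ') + 2 * (k * (c * s + δ') + δ') + δ' =
        2 * ((k + 1) * c) * s + (2 * k + 5) * δ' := by ring
      have h3 : 2 * ((k + 1) * c) * s ≤ s / 2 := by nlinarith
      linarith
    have h1 : s ≤ s / 2 + (2 * k + 5) * δ' :=
      (bad_mono (A := A) P.ρ_le (.x z0) (w z0) n).trans (hfin z0 hz0)
    have h2 := hfin z hz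
    nlinarith
  intro z hz
  rw [cln_iff]
  intro δ hδ
  filter_upwards [key δ hδ] with n hn'
  exact hn' z hz

end BLim

end Vale.Agent.P330.H551
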