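import Vale.Agent.P330.H551.BDefs
import Vale.Agent.P330.S.Prop2

/-!
# Pointwise and finite lemmas for networks of blocks
-/

namespace Vale.Agent.P330.H551

open Finset PCP.AR
open S (BitDef MDef Sem IsB Tst Ctl target MuxI ThOK TfOK pr_fiber)

section

variable {Reg Rd CB Ω : Type} {nO : ℕ} {E : GSem Rd CB Ω nO} {ε lam : ℝ} {x : Reg → Ω → ℝ} {ω : Ω}

/-- The input `p` has the value `b` at `ω`. -/
def InpIs (E : GSem Rd CB Ω nO) (ε : ℝ) (x : Reg → Ω → ℝ) (ω : Ω) (p : (Rd × Reg) ⊕ CB) (b : Bool) :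
    Prop :=
  Sum.elim (fun p => IsB ε b (x p.2 (E.rd p.1 ω))) (fun κ => E.cb κ ω = b) p

/-- The completion `y` is compatible with the input `i`. -/
def Compat (E : GSem Rd CB Ω nO) (ε : ℝ) (x : Reg → Ω → ℝ) (ω : Ω) (p : (Rd × Reg) ⊕ CB)
    (b : Bool) : Prop :=
  Sum.elim (fun p => ∀ b', IsB ε b' (x p.2 (E.rd p.1 ω)) → b = b')
    (fun κ => b = E.cb κ ω) p

theorem Compat.eq {p : (Rd × Reg) ⊕ CB} {b b' : Bool} (h : Compat E ε x ω p b)
    (h' : InpIs E ε x ω p b') : b = b' := by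
  cases p with
  | inl p => exact h b' h'
  | inr κ => exact Eq.trans h h'

/-- The rule of a bit register. -/
theorem rel_bit {B : BitDef Reg Rd CB} {ρ : Reg} (h : (GDef.bit B).Rel E ε lam x ρ ω) (b : Bool)
    (hb : ∀ y : B.ι → Bool, (∀ i, Compat E ε x ω (B.inp i) (y i)) → B.f y = b) :
    IsB ε b (x ρ ω) := h b hb

end

variable {N : BSpec} {I : BInst N} {τ : ℚ} {ε lam : ℝ} {x : BReg N → I.Site → ℝ} {ω : I.Site}

/-- **Multiplexer**, pointwise. -/
theorem mux_pt {z : Bool} {l : N.L} (hR : (bnet N τ (.pre z l)).Rel I.sem ε lam x (.pre z l) ω)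
    (e : Bool)
    (ha : IsB ε true (x (.th 2 0) ω) ∨ I.enc (I.sys.word I.sys.w0 ω.1) l ω.2.1 = e)
    (hb : IsB ε false (x (.th 2 0) ω) ∨ IsB ε (!z) (x (.th 1 (if z then 1 else 3)) ω) ∨
      IsB ε e (x (hN z l) ω))
    (hc : IsB ε false (x (.th 2 0) ω) ∨ IsB ε z (x (.th 1 (if z then 1 else 3)) ω) ∨
      IsB ε true (x (.th 0 2) ω) ∨ IsB ε e (x (hN (!z) l) ω))
    (hd : IsB ε false (x (.th 2 0) ω) ∨ IsB ε z (x (.th 1 (if z then 1 else 3)) ω) ∨
      IsB ε false (x (.th 0 2) ω) ∨ IsB ε e (x (aN (!z) l) ω)) :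
    IsB ε e (x (.pre z l) ω) := by
  refine rel_bit (B := muxDef z l) hR e fun y hy => ?_
  have h1 : ∀ b', IsB ε b' (x (.th 2 0) ω) → y .s1 = b' := hy .s1
  have h2 : ∀ b', IsB ε b' (x (.th 1 (if z then 1 else 3)) ω) → y .bsel = b' :=
    hy .bsel
  have h3 : ∀ b', IsB ε b' (x (.th 0 2) ω) → y .asel = b' := hy .asel
  have h4 : y .start = I.enc (I.sys.word I.sys.w0 ω.1) l ω.2.1 := hy .start
  have h5 : ∀ b', IsB ε b' (x (hN z l) ω) → y .hold = b' := hy .hold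
  have h6 : ∀ b', IsB ε b' (x (hN (!z) l) ω) → y .other = b' := hy .other
  have h7 : ∀ b', IsB ε b' (x (aN (!z) l) ω) → y .next = b' := hy .next
  show (if y .s1 = false then y .start else if y .bsel = z then y .hold
    else if y .asel = false then y .other else y .next) = e
  by_cases c1 : y .s1 = false
  · rw [if_pos c1]
    rcases ha with h | h
    · have := h1 _ h
      rw [c1] at this
      exact absurd this (by simp)
    · exact Eq.trans h4 h
  · rw [if_neg c1]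
    by_cases c2 : y .bsel = z
    · rw [if_pos c2]
      rcases hb with h | h | h
      · exact absurd (h1 _ h) c1
      · have := h2 _ h
        rw [c2] at this
        cases z <;> simp at this
      · exact h5 _ h
    · rw [if_neg c2]
      by_cases c3 : y .asel = false
      · rw [if_pos c3]
        rcases hc with h | h | h | h
        · exact absurd (h1 _ h) c1
        · exact absurd (h2 _ h) c2
        · have := h3 _ h
          rw [c3] at this
          exact absurd this (by simp)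
        · exact h6 _ h
      · rw [if_neg c3]
        rcases hd with h | h | h | h
        · exact absurd (h1 _ h) c1
        · exact absurd (h2 _ h) c2
        · exact absurd (h3 _ h) c3
        · exact h7 _ h

/-- **Comparison**, pointwise: different inputs. -/
theorem cmp_true {ρ : BReg N} {u v : N.L → (BRd N × BReg N) ⊕ BCB N}
    (hR : (GDef.bit (cmpDef u v)).Rel I.sem ε lam x ρ ω) {c : N.L} {b b' : Bool}
    (h : InpIs I.sem ε x ω (u c) b) (h' : InpIs I.sem ε x ω (v c) b') (hne : b ≠ b') :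
    IsB ε true (x ρ ω) := by
  refine rel_bit (B := cmpDef u v) hR true fun y hy => ?_
  have h1 := hy (false, c)
  have h2 := hy (true, c)
  refine decide_eq_true ⟨c, ?_⟩
  have e1 : y (false, c) = b := Compat.eq (p := u c) h1 h
  have e2 : y (true, c) = b' := Compat.eq (p := v c) h2 h'
  rw [e1, e2]
  exact hne

/-- **Comparison**, pointwise: equal inputs. -/
theorem cmp_false {ρ : BReg N} {u v : N.L → (BRd N × BReg N) ⊕ BCB N}
    (hR : (GDef.bit (cmpDef u v)).Rel I.sem ε lam x ρ ω) {b : N.L → Bool}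
    (h : ∀ c, InpIs I.sem ε x ω (u c) (b c)) (h' : ∀ c, InpIs I.sem ε x ω (v c) (b c)) :
    IsB ε false (x ρ ω) := by
  refine rel_bit (B := cmpDef u v) hR false fun y hy => ?_
  refine decide_eq_false ?_
  rintro ⟨c, hc⟩
  have e1 : y (false, c) = b c := Compat.eq (p := u c) (hy (false, c)) (h c)
  have e2 : y (true, c) = b c := Compat.eq (p := v c) (hy (true, c)) (h' c)
  exact hc (e1.trans e2.symm)

/-- **Control bits**, pointwise. -/
theorem ctl_pt {i : Fin 3} {q : Fin 3 → ℝ} {T : Tst → ℝ} {b : Bool}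
    (hR : (bnet N τ (.q i)).Rel I.sem ε lam x (.q i) ω)
    (hth : ∀ (j : Fin 3) (l : Fin 5), ((((l : ℕ) : ℝ) + 1) / 6 < q j → IsB ε true (x (.th j l) ω)) ∧
      (q j < (((l : ℕ) : ℝ) + 1) / 6 → IsB ε false (x (.th j l) ω)))
    (htf : ∀ k, ((τ : ℝ) < T k → IsB ε true (x (.tf k) ω)) ∧
      (T k < (τ : ℝ) → IsB ε false (x (.tf k) ω)))
    (h : ∀ y : Ctl, ThOK q y.th → TfOK (τ : ℝ) T y.tf →
      target y.th y.v (y.sg false) (y.sg true) i = b) :
    IsB ε b (x (.q i) ω) := by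
  refine rel_bit (B := qDef i) hR b fun y hy => ?_
  refine h ⟨fun i l => y (.inl (i, l)), fun k => y (.inr k)⟩ ?_ ?_
  · intro j l
    have h1 : ∀ b', IsB ε b' (x (.th j l) ω) → y (.inl (j, l)) = b' :=
      hy (.inl (j, l))
    exact ⟨fun hj => h1 _ ((hth j l).1 hj), fun hj => h1 _ ((hth j l).2 hj)⟩
  · intro k
    have h1 : ∀ b', IsB ε b' (x (.tf k) ω) → y (.inr k) = b' := hy (.inr k)
    exact ⟨fun hj => h1 _ ((htf k).1 hj), fun hj => h1 _ ((htf k).2 hj)⟩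

/-- The test of a register fails if the module `check` says so. -/
theorem T_true {z : Bool} (hR : (bnet N τ (.t (.T z))).Rel I.sem ε lam x (.t (.T z)) ω)
    (h : IsB ε true (x (.check z (N.check.out ())) ω)) : IsB ε true (x (.t (.T z)) ω) := by
  refine rel_bit (B := tstDef (.T z)) hR true fun y hy => ?_
  have h1 : ∀ b', IsB ε b' (x (.check z (N.check.out ())) ω) → y (.inl ()) = b' := hy (.inl ())
  show (y (.inl ()) || _) = true
  rw [h1 _ h, Bool.true_or]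

/-- The test of a register fails if a value of `pre` is not pure. -/
theorem T_flag {z : Bool} {l : N.L}
    (hR : (bnet N τ (.t (.T z))).Rel I.sem ε lam x (.t (.T z)) ω)
    (h1 : IsB ε true (x (.lo z l) ω)) (h2 : IsB ε false (x (.hi z l) ω)) :
    IsB ε true (x (.t (.T z)) ω) := by
  refine rel_bit (B := tstDef (.T z)) hR true fun y hy => ?_
  have g1 : ∀ b', IsB ε b' (x (.lo z l) ω) → y (.inr (false, l)) = b' := hy (.inr (false, l))
  have g2 : ∀ b', IsB ε b' (x (.hi z l) ω) → y (.inr (true, l)) = b' := hy (.inr (true, l))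
  show (_ || decide (∃ l, y (.inr (false, l)) = true ∧ y (.inr (true, l)) = false)) = true
  rw [decide_eq_true ⟨l, g1 _ h1, g2 _ h2⟩, Bool.or_true]

/-- The test of a register passes if the module `check` says so and if the flags are right. -/
theorem T_false {z : Bool} (hR : (bnet N τ (.t (.T z))).Rel I.sem ε lam x (.t (.T z)) ω)
    (h : IsB ε false (x (.check z (N.check.out ())) ω)) (b : N.L → Bool)
    (h1 : ∀ l, IsB ε (b l) (x (.lo z l) ω)) (h2 : ∀ l, IsB ε (b l) (x (.hi z l) ω)) :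
    IsB ε false (x (.t (.T z)) ω) := by
  refine rel_bit (B := tstDef (.T z)) hR false fun y hy => ?_
  have g0 : ∀ b', IsB ε b' (x (.check z (N.check.out ())) ω) → y (.inl ()) = b' := hy (.inl ())
  have g1 : ∀ l b', IsB ε b' (x (.lo z l) ω) → y (.inr (false, l)) = b' :=
    fun l => hy (.inr (false, l))
  have g2 : ∀ l b', IsB ε b' (x (.hi z l) ω) → y (.inr (true, l)) = b' :=
    fun l => hy (.inr (true, l))
  show (y (.inl ()) || decide (∃ l, y (.inr (false, l)) = true ∧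
    y (.inr (true, l)) = false)) = false
  rw [g0 _ h, Bool.false_or]
  refine decide_eq_false ?_
  rintro ⟨l, e1, e2⟩
  rw [g1 l _ (h1 l)] at e1
  rw [g2 l _ (h2 l)] at e2
  rw [e1] at e2
  exact absurd e2 (by simp)

/-! ### Streams -/

/-- The stream `f` is right at the site. -/
def Rt (I : BInst N) (ε : ℝ) (x : BReg N → I.Site → ℝ) (f : N.L → BReg N) (w : I.Cf)
    (ω : I.Site) : Prop :=
  ∀ l : N.L, IsB ε (I.enc (I.sys.word w ω.1) l ω.2.1) (x (f l) ω)

theorem clean_iff {ρ : ℝ} {f : N.L → BReg N} {w : I.Cf} {h : I.Om} :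
    I.Clean ε ρ (I.sys.word w h) (I.str x f h) ↔
      pr (fun ω : I.P × I.Z => ¬ Rt I ε x f w (h, ω)) ≤ ρ := by
  unfold Fmt.Clean
  rw [pr_congr (p := fun ω : I.W => ∃ l, ¬ IsB ε (I.enc (I.sys.word w h) l ω.1)
    (I.str x f h l ω)) (r := fun ω : I.P × I.Z => ¬ Rt I ε x f w (h, ω))
    fun ω => not_forall.symm]

theorem clean_mono {F : Fmt N.L} {ρ ρ' : ℝ} (hρ : ρ ≤ ρ') {s : F.Bl} {u : N.L → F.W → ℝ}
    (h : F.Clean ε ρ s u) : F.Clean ε ρ' s u := le_trans h hρ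

/-- At most one block is clean. -/
theorem clean_unique {c : BConst} (F : I.Facts c) (hε : ε < 1 / 2) {s s' : I.Bl}
    {u : N.L → I.W → ℝ} (h : I.Clean ε c.ρin s u) (h' : I.Clean ε c.ρin s' u) : s = s' := by
  by_contra hne
  have h1 := F.encDist s s' hne
  have h2 : pr (fun p : I.P => ∃ l, I.enc s l p ≠ I.enc s' l p) =
      pr (fun ω : I.W => ∃ l, I.enc s l ω.1 ≠ I.enc s' l ω.1) :=
    (pr_fst (Ω' := I.Z) fun p : I.P => ∃ l, I.enc s l p ≠ I.enc s' l p).symm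
  have h3 : pr (fun ω : I.W => ∃ l, I.enc s l ω.1 ≠ I.enc s' l ω.1) ≤
      pr (fun ω : I.W => ∃ l, ¬ IsB ε (I.enc s l ω.1) (u l ω)) +
      pr (fun ω : I.W => ∃ l, ¬ IsB ε (I.enc s' l ω.1) (u l ω)) := by
    refine le_trans (pr_mono fun ω hω => ?_) (pr_or _ _)
    obtain ⟨l, hl⟩ := hω
    by_contra hc
    push Not at hc
    have a1 := hc.1 l
    have a2 := hc.2 l
    unfold IsB at a1 a2
    rcases e1 : I.enc s l ω.1 with _ | _ <;> rcases e2 : I.enc s' l ω.1 with _ | _ <;>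
      rw [e1] at a1 <;> rw [e2] at a2 <;> simp at a1 a2
    · exact hl (e1.trans e2.symm)
    · linarith
    · linarith
    · exact hl (e1.trans e2.symm)
  have h4 := c.θin_lt
  unfold Fmt.Clean at h h'
  linarith

/-- Comparisons are right if both families are right. -/
theorem E0_pt {w : I.Cf} {ω : I.Site}
    (hR : (bnet N τ (.t .E0)).Rel I.sem ε lam x (.t .E0) ω)
    (h1 : Rt I ε x (.x false) w ω) (h2 : Rt I ε x (.x true) w ω) : IsB ε false (x (.t .E0) ω) :=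
  cmp_false (b := fun l => I.enc (I.sys.word w ω.1) l ω.2.1) hR (fun c => h1 c) fun c => h2 c

theorem E1_pt {w : I.Cf} {ω : I.Site}
    (hR : (bnet N τ (.t .E1)).Rel I.sem ε lam x (.t .E1) ω)
    (h1 : Rt I ε x (aN false) w ω) (h2 : Rt I ε x (.x true) w ω) : IsB ε false (x (.t .E1) ω) :=
  cmp_false (b := fun l => I.enc (I.sys.word w ω.1) l ω.2.1) hR (fun c => h2 c) fun c => h1 c

theorem D_pt {z : Bool} {ω : I.Site}
    (hR : (bnet N τ (.t (.D z))).Rel I.sem ε lam x (.t (.D z)) ω)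
    (h1 : Rt I ε x (.x z) I.sys.w0 ω) : IsB ε false (x (.t (.D z)) ω) :=
  cmp_false (b := fun l => I.enc (I.sys.word I.sys.w0 ω.1) l ω.2.1) hR (fun c => h1 c)
    fun _ => rfl

theorem fr_eq_pr {Ω : Type} [Fintype Ω] (p : Ω → Prop) : H797.fr p = pr p := by
  unfold H797.fr
  rw [S.pr_eq_card]

/-! ### Comparisons, finite form -/

/-- Two families of values that are clean for different words differ at many sites. -/
theorem lower_gen {c : BConst} (F : I.Facts c) {w w' : I.Cf} (hne : w ≠ w')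
    (φ φ' : N.L → Bool → I.Site → Prop) {ρ₁ ρ₂ : ℝ}
    (h1 : pr (fun h : I.Om => ¬ pr (fun ω : I.P × I.Z =>
      ∃ l, ¬ φ l (I.enc (I.sys.word w h) l ω.1) (h, ω)) ≤ c.ρin) ≤ ρ₁)
    (h2 : pr (fun h : I.Om => ¬ pr (fun ω : I.P × I.Z =>
      ∃ l, ¬ φ' l (I.enc (I.sys.word w' h) l ω.1) (h, ω)) ≤ c.ρin) ≤ ρ₂) :
    (c.θin - 2 * c.ρin) * (c.θ - ρ₁ - ρ₂) ≤
      pr (fun ω : I.Site => ∃ l b b', b ≠ b' ∧ φ l b ω ∧ φ' l b' ω) := by
  have h0 : 0 ≤ c.θin - 2 * c.ρin := by have := c.θin_lt; linarith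
  refine le_trans (mul_le_mul_of_nonneg_left ?_ h0)
    (pr_fiber (V := I.Om) (W := I.P × I.Z) (fun ω : I.Om × (I.P × I.Z) =>
      ∃ l b b', b ≠ b' ∧ φ l b ω ∧ φ' l b' ω) (c.θin - 2 * c.ρin))
  have hd := F.dyn.dist w w' hne
  rw [fr_eq_pr] at hd
  have key : pr (fun h : I.Om => I.sys.word w h ≠ I.sys.word w' h) ≤
      pr (fun h : I.Om => c.θin - 2 * c.ρin ≤ pr fun ω : I.P × I.Z =>
        ∃ l b b', b ≠ b' ∧ φ l b (h, ω) ∧ φ' l b' (h, ω)) +
      (pr (fun h : I.Om => ¬ pr (fun ω : I.P × I.Z =>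
        ∃ l, ¬ φ l (I.enc (I.sys.word w h) l ω.1) (h, ω)) ≤ c.ρin) +
      pr (fun h : I.Om => ¬ pr (fun ω : I.P × I.Z =>
        ∃ l, ¬ φ' l (I.enc (I.sys.word w' h) l ω.1) (h, ω)) ≤ c.ρin)) := by
    refine le_trans (pr_mono fun h hh => ?_) ((pr_or _ _).trans
      (add_le_add le_rfl (pr_or _ _)))
    by_contra hc
    push Not at hc
    obtain ⟨c1, c2, c3⟩ := hc
    have e1 := F.encDist _ _ hh
    have e2 : pr (fun p : I.P => ∃ l, I.enc (I.sys.word w h) l p ≠ I.enc (I.sys.word w' h) l p) =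
        pr (fun ω : I.P × I.Z => ∃ l, I.enc (I.sys.word w h) l ω.1 ≠
          I.enc (I.sys.word w' h) l ω.1) :=
      (pr_fst (Ω' := I.Z) fun p : I.P => ∃ l, I.enc (I.sys.word w h) l p ≠
        I.enc (I.sys.word w' h) l p).symm
    have e3 : pr (fun ω : I.P × I.Z => ∃ l, I.enc (I.sys.word w h) l ω.1 ≠
        I.enc (I.sys.word w' h) l ω.1) ≤
        pr (fun ω : I.P × I.Z => ∃ l b b', b ≠ b' ∧ φ l b (h, ω) ∧ φ' l b' (h, ω)) +
        (pr (fun ω : I.P × I.Z => ∃ l, ¬ φ l (I.enc (I.sys.word w h) l ω.1) (h, ω)) +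
        pr (fun ω : I.P × I.Z => ∃ l, ¬ φ' l (I.enc (I.sys.word w' h) l ω.1) (h, ω))) := by
      refine le_trans (pr_mono fun ω hω => ?_) ((pr_or _ _).trans
        (add_le_add le_rfl (pr_or _ _)))
      by_contra hcc
      push Not at hcc
      obtain ⟨l, hl⟩ := hω
      exact hcc.1 l _ _ hl (hcc.2.1 l) (hcc.2.2 l)
    linarith
  linarith

theorem E0_lower {c : BConst} (F : I.Facts c) {w w' : I.Cf} {β ρ₁ ρ₂ : ℝ}
    (hR : pr (fun ω => ¬ (bnet N τ (.t .E0)).Rel I.sem ε lam x (.t .E0) ω) ≤ β)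
    (h1 : I.Near ε c.ρin ρ₁ x false w) (h2 : I.Near ε c.ρin ρ₂ x true w') (hne : w ≠ w') :
    (c.θin - 2 * c.ρin) * (c.θ - ρ₁ - ρ₂) - β ≤ pr (fun ω => IsB ε true (x (.t .E0) ω)) := by
  have key := lower_gen F hne (fun l b ω => IsB ε b (x (.x false l) ω))
    (fun l b ω => IsB ε b (x (.x true l) ω)) h1 h2
  have h3 := pr_or (fun ω => ¬ (bnet N τ (.t .E0)).Rel I.sem ε lam x (.t .E0) ω)
    (fun ω => IsB ε true (x (.t .E0) ω))
  have h4 : pr (fun ω : I.Site => ∃ l b b', b ≠ b' ∧ IsB ε b (x (.x false l) ω) ∧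
      IsB ε b' (x (.x true l) ω)) ≤ _ := le_trans (pr_mono fun ω hω => ?_) h3
  · linarith
  · obtain ⟨l, b, b', hb, g1, g2⟩ := hω
    by_cases hr : (bnet N τ (.t .E0)).Rel I.sem ε lam x (.t .E0) ω
    · exact Or.inr (cmp_true (c := l) hr g1 g2 hb)
    · exact Or.inl hr

theorem E1_lower {c : BConst} (F : I.Facts c) {w w' : I.Cf} {β ρ₁ ρ₂ : ℝ}
    (hR : pr (fun ω => ¬ (bnet N τ (.t .E1)).Rel I.sem ε lam x (.t .E1) ω) ≤ β)
    (h1 : pr (fun h : I.Om => ¬ I.Clean ε c.ρin (I.sys.word w h) (I.str x (aN false) h)) ≤ ρ₁)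
    (h2 : I.Near ε c.ρin ρ₂ x true w') (hne : w' ≠ w) :
    (c.θin - 2 * c.ρin) * (c.θ - ρ₂ - ρ₁) - β ≤ pr (fun ω => IsB ε true (x (.t .E1) ω)) := by
  have key := lower_gen F hne (fun l b ω => IsB ε b (x (.x true l) ω))
    (fun l b ω => IsB ε b (x (aN false l) ω)) h2 h1
  have h3 := pr_or (fun ω => ¬ (bnet N τ (.t .E1)).Rel I.sem ε lam x (.t .E1) ω)
    (fun ω => IsB ε true (x (.t .E1) ω))
  have h4 : pr (fun ω : I.Site => ∃ l b b', b ≠ b' ∧ IsB ε b (x (.x true l) ω) ∧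
      IsB ε b' (x (aN false l) ω)) ≤ _ := le_trans (pr_mono fun ω hω => ?_) h3
  · linarith
  · obtain ⟨l, b, b', hb, g1, g2⟩ := hω
    by_cases hr : (bnet N τ (.t .E1)).Rel I.sem ε lam x (.t .E1) ω
    · exact Or.inr (cmp_true (c := l) hr g1 g2 hb)
    · exact Or.inl hr

theorem D_lower {c : BConst} (F : I.Facts c) {z : Bool} {w : I.Cf} {β ρ₁ : ℝ}
    (hR : pr (fun ω => ¬ (bnet N τ (.t (.D z))).Rel I.sem ε lam x (.t (.D z)) ω) ≤ β)
    (h1 : I.Near ε c.ρin ρ₁ x z w) (hne : w ≠ I.sys.w0) :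
    (c.θin - 2 * c.ρin) * (c.θ - ρ₁) - β ≤ pr (fun ω => IsB ε true (x (.t (.D z)) ω)) := by
  have h0 : pr (fun h : I.Om => ¬ pr (fun ω : I.P × I.Z =>
      ∃ l, ¬ (I.enc (I.sys.word I.sys.w0 (h, ω).1) l (h, ω).2.1 =
        I.enc (I.sys.word I.sys.w0 h) l ω.1)) ≤ c.ρin) ≤ 0 := by
    refine le_of_eq ?_
    rw [← pr_false (Ω := I.Om)]
    refine pr_congr fun h => ⟨fun hc => hc ?_, fun h => h.elim⟩
    refine le_trans (le_of_eq ?_) c.ρin_pos.le
    rw [← pr_false (Ω := I.P × I.Z)]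
    exact pr_congr fun ω => ⟨fun ⟨l, hl⟩ => hl rfl, fun h => h.elim⟩
  have key := lower_gen F hne (fun l b ω => IsB ε b (x (.x z l) ω))
    (fun l b ω => I.enc (I.sys.word I.sys.w0 ω.1) l ω.2.1 = b) h1 h0
  have h3 := pr_or (fun ω => ¬ (bnet N τ (.t (.D z))).Rel I.sem ε lam x (.t (.D z)) ω)
    (fun ω => IsB ε true (x (.t (.D z)) ω))
  have h4 : pr (fun ω : I.Site => ∃ l b b', b ≠ b' ∧ IsB ε b (x (.x z l) ω) ∧
      I.enc (I.sys.word I.sys.w0 ω.1) l ω.2.1 = b') ≤ _ :=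
    le_trans (pr_mono fun ω hω => ?_) h3
  · have e : c.θ - ρ₁ - 0 = c.θ - ρ₁ := sub_zero _
    rw [e] at key
    linarith
  · obtain ⟨l, b, b', hb, g1, g2⟩ := hω
    by_cases hr : (bnet N τ (.t (.D z))).Rel I.sem ε lam x (.t (.D z)) ω
    · exact Or.inr (cmp_true (c := l) hr g1 g2 hb)
    · exact Or.inl hr

end Vale.Agent.P330.H551
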