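import Vale.Agent.P330.H551.BAE
import Vale.Agent.P330.H551.BMux

/-!
# Modules in a network of blocks

At almost all outer sites the modules are obeyed with a small error, so that their soundness can be
used.
-/

namespace Vale.Agent.P330.H551

open Finset PCP.AR Filter Topology
open S (BitDef MDef Sem IsB Tst aef ae_iff ae_of_le ae_of_small ae_pr_lt ae_fst pr_fiber)

variable {N : BSpec}

/-! ### From the composite network to the modules -/

/-- The relation of an embedded register is the relation of the module. -/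
theorem emb_rel {I : BInst N} {O : Type} {M : Mod (Fin N.k × N.L) O} {own : M.Reg → BReg N}
    {inp : N.L → BReg N} {rdn : M.Rd → N.hold.Rd ⊕ N.step.Rd ⊕ N.check.Rd}
    {cbn : M.CB → BCB N} {S : Sem M.Rd M.CB (I.P × I.Z)} {h : I.Om}
    (hrd : ∀ R ω i, I.sem.rd (.rd i (rdn R)) (h, ω) =
      (i.elim h fun i => I.sys.wr i h, S.rd R ω))
    (hcb : ∀ κ ω, I.sem.cb (cbn κ) (h, ω) = S.cb κ ω)
    (hnb : S.nb = I.nbI) {ε lam : ℝ} {x : BReg N → I.Site → ℝ} {ρ : M.Reg} {ω : I.P × I.Z}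
    (hR : (emb own inp rdn cbn (M.net ρ)).Rel I.sem ε lam x (own ρ) (h, ω)) :
    (M.net ρ).toM.Rel S ε ((M.net ρ).lamOf lam)
      (Sum.elim (fun ρ ω => x (own ρ) (h, ω)) fun a ω => x (inp a.2) (I.sys.wr a.1 h, ω))
      (.inl ρ) ω := by
  rcases hd : M.net ρ with B | ⟨α, ρ'⟩ | ⟨o, g, ρ'⟩
  · rw [hd] at hR
    intro b hb
    refine hR b fun y hy => hb y fun i => ?_
    have h1 := hy i
    simp only at h1
    rcases hi : B.inp i with ⟨R, ρ' | a⟩ | κ
    · simp only [hi, Sum.elim_inl, hrd, Option.elim_none] at h1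
      exact h1
    · simp only [hi, Sum.elim_inl, hrd, Option.elim_some] at h1
      exact h1
    · simp only [hi, Sum.elim_inr, hcb] at h1
      exact h1
  · rw [hd] at hR
    exact hR
  · rw [hd] at hR
    cases g with
    | false =>
      have e : I.sem.avg .pad (x (own ρ)) (h, ω) =
          S.avg false (fun ω => x (own ρ) (h, ω)) ω := by
        unfold Sem.avg GSem.avg
        rw [hnb]
        rfl
      have h1 : |x (own ρ) (h, ω) - ((1 - ownLam o lam) * I.sem.avg .pad (x (own ρ)) (h, ω) +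
        ownLam o lam * x (own ρ') (h, ω))| ≤ 20 * ε := hR
      rw [e] at h1
      exact h1
    | true =>
      have e : I.sem.avg .inn (x (own ρ)) (h, ω) =
          S.avg true (fun ω => x (own ρ) (h, ω)) ω := by
        unfold Sem.avg GSem.avg
        rw [hnb, if_pos rfl]
        rfl
      have h1 : |x (own ρ) (h, ω) - ((1 - ownLam o lam) * I.sem.avg .inn (x (own ρ)) (h, ω) +
        ownLam o lam * x (own ρ') (h, ω))| ≤ 20 * ε := hR
      rw [e] at h1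
      exact h1

namespace BLim

variable {A : BLim N}

/-- At almost all outer sites a module is obeyed with a small error. -/
theorem mod_obeys {O : Type} {M : Mod (Fin N.k × N.L) O} {own : M.Reg → BReg N}
    {inp : N.L → BReg N} {rdn : M.Rd → N.hold.Rd ⊕ N.step.Rd ⊕ N.check.Rd}
    {cbn : M.CB → BCB N} (S : ∀ n, (A.I n).Om → Sem M.Rd M.CB ((A.I n).P × (A.I n).Z))
    (hnet : ∀ ρ, bnet N A.τ (own ρ) = emb own inp rdn cbn (M.net ρ))
    (hrd : ∀ n h R ω i, (A.I n).sem.rd (.rd i (rdn R)) (h, ω) =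
      (i.elim h fun i => (A.I n).sys.wr i h, (S n h).rd R ω))
    (hcb : ∀ n h κ ω, (A.I n).sem.cb (cbn κ) (h, ω) = (S n h).cb κ ω)
    (hnb : ∀ n h, (S n h).nb = (A.I n).nbI) {η : ℝ} (hη : 0 < η) :
    ∀ᶠ h in A.FO, Small η (A.ε h.1) (A.lam h.1) (η * A.lam h.1) ∧
      M.Obeys (S h.1 h.2) (A.ε h.1) (A.lam h.1) (η * A.lam h.1)
        (fun ρ ω => A.x h.1 (own ρ) (h.2, ω))
        (fun a ω => A.x h.1 (inp a.2) ((A.I h.1).sys.wr a.1 h.2, ω)) := by
  have e1 : ∀ᶠ n in (A.U : Filter ℕ), Small η (A.ε n) (A.lam n) (η * A.lam n) := by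
    have a1 : ∀ᶠ n in (A.U : Filter ℕ), A.ε n / A.lam n < η :=
      A.ε_lam.eventually (gt_mem_nhds hη)
    have a2 : ∀ᶠ n in (A.U : Filter ℕ), A.lam n < η := A.lam_lim.eventually (gt_mem_nhds hη)
    filter_upwards [a1, a2] with n h1 h2
    rw [div_lt_iff₀ (A.lam_pos n)] at h1
    exact ⟨A.ε_pos n, A.lam_pos n, h2.le, h1.le, le_rfl⟩
  have e2 : ∀ᶠ h in A.FO, ∀ ρ : M.Reg, pr (fun ω : (A.I h.1).P × (A.I h.1).Z =>
      ¬ (bnet N A.τ (own ρ)).Rel (A.I h.1).sem (A.ε h.1) (A.lam h.1) (A.x h.1) (own ρ)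
        (h.2, ω)) ≤ η * A.lam h.1 := by
    rw [eventually_all]
    intro ρ
    have a1 : Tendsto (fun n => A.β n / A.lam n / η) (A.U : Filter ℕ) (𝓝 0) := by
      have := A.β_lam.div_const η
      rwa [zero_div] at this
    refine ae_of_le a1 (Eventually.of_forall fun n => ?_)
    have hl := A.lam_pos n
    have h1 := pr_fiber (V := (A.I n).Om) (W := (A.I n).P × (A.I n).Z)
      (fun ω : (A.I n).Om × ((A.I n).P × (A.I n).Z) =>
        ¬ (bnet N A.τ (own ρ)).Rel (A.I n).sem (A.ε n) (A.lam n) (A.x n) (own ρ) ω)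
      (η * A.lam n)
    have h2 := (A.obeys n).2 (own ρ)
    have h3 : pr (fun h : (A.I n).Om => ¬ pr (fun ω : (A.I n).P × (A.I n).Z =>
        ¬ (bnet N A.τ (own ρ)).Rel (A.I n).sem (A.ε n) (A.lam n) (A.x n) (own ρ)
        (h, ω)) ≤ η * A.lam n) ≤ pr (fun h : (A.I n).Om => η * A.lam n ≤
        pr (fun ω : (A.I n).P × (A.I n).Z =>
        ¬ (bnet N A.τ (own ρ)).Rel (A.I n).sem (A.ε n) (A.lam n) (A.x n) (own ρ) (h, ω))) :=
      pr_mono fun h hh => (not_le.1 hh).le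
    rw [div_div, le_div_iff₀ (by positivity)]
    nlinarith [pr_nonneg (fun h : (A.I n).Om => ¬ pr (fun ω : (A.I n).P × (A.I n).Z =>
        ¬ (bnet N A.τ (own ρ)).Rel (A.I n).sem (A.ε n) (A.lam n) (A.x n) (own ρ)
        (h, ω)) ≤ η * A.lam n), mul_pos hη hl]
  filter_upwards [ae_fst (Ω := fun n => (A.I n).Om) e1, e2] with h g1 g2
  refine ⟨g1, fun ρ ω => (A.obeys h.1).1 _ _, fun a ω => (A.obeys h.1).1 _ _, fun ρ => ?_⟩
  refine le_trans (pr_mono (r := fun ω => ¬ (bnet N A.τ (own ρ)).Rel (A.I h.1).sem (A.ε h.1)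
    (A.lam h.1) (A.x h.1) (own ρ) (h.2, ω)) fun ω hω hc => hω ?_) (g2 ρ)
  rw [hnet ρ] at hc
  exact emb_rel (hrd h.1 h.2) (hcb h.1 h.2) (hnb h.1 h.2) hc

/-! ### Soundness at almost all outer sites -/

/-- The stage `j` of `hold` works at `h`. -/
def HoldOK (A : BLim N) (ρin ρ : ℝ) (z : Bool) (j : Fin (N.r + 1)) (h : A.PO) : Prop :=
  ∀ (G : Fin N.k → Option (A.I h.1).Bl) (s' : (A.I h.1).Bl),
    (∀ i s, G i = some s → (A.I h.1).Clean (A.ε h.1) ρin s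
      ((A.I h.1).str (A.x h.1) (hin z j) ((A.I h.1).sys.wr i h.2))) →
    (∀ X : Fin N.k → Option (A.I h.1).Bl, (∀ i s, G i = some s → X i = some s) →
      (A.I h.1).sys.eta h.2 X = s') →
    (A.I h.1).Clean (A.ε h.1) ρ s' ((A.I h.1).str (A.x h.1) (fun l => .hold z j (N.hold.out l)) h.2)

/-- The module `step` works at `h`. -/
def StepOK (A : BLim N) (ρin ρ : ℝ) (z : Bool) (h : A.PO) : Prop :=
  ∀ s : Fin N.k → (A.I h.1).Bl, (∀ i, (A.I h.1).Clean (A.ε h.1) ρin (s i)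
      ((A.I h.1).str (A.x h.1) (hN z) ((A.I h.1).sys.wr i h.2))) →
    (A.I h.1).Clean (A.ε h.1) ρ ((A.I h.1).sys.phi z h.2 s) ((A.I h.1).str (A.x h.1) (aN z) h.2)

/-- The output of the module `check` at `h`. -/
def tout (A : BLim N) (z : Bool) (h : A.PO) : (A.I h.1).P × (A.I h.1).Z → ℝ :=
  fun ω => A.x h.1 (.check z (N.check.out ())) (h.2, ω)

/-- The flag of the module `check` works at `h`. -/
def FlagOK (A : BLim N) (ρin κin : ℝ) (z : Bool) (h : A.PO) : Prop :=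
  (A.I h.1).Crisp (A.ε h.1) κin ((A.I h.1).str (A.x h.1) (.x z) h.2) →
  pr (fun ω => IsB (A.ε h.1) true (A.tout z h ω)) ≤ κin →
    ∃ s, (A.I h.1).Clean (A.ε h.1) ρin s ((A.I h.1).str (A.x h.1) (.x z) h.2)

/-- The module `check` rejects at `h`. -/
def RejectOK (A : BLim N) (ρin ρ : ℝ) (z : Bool) (h : A.PO) : Prop :=
  ∀ s : Fin N.k → (A.I h.1).Bl, (∀ i, (A.I h.1).Clean (A.ε h.1) ρin (s i)
      ((A.I h.1).str (A.x h.1) (.x z) ((A.I h.1).sys.wr i h.2))) →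
    ¬ (A.I h.1).sys.chi h.2 s → pr (fun ω => ¬ IsB (A.ε h.1) true (A.tout z h ω)) ≤ ρ

/-- The module `check` accepts at `h`. -/
def AcceptOK (A : BLim N) (ρa ρ : ℝ) (z : Bool) (h : A.PO) : Prop :=
  ∀ s : Fin N.k → (A.I h.1).Bl, (∀ i, (A.I h.1).Clean (A.ε h.1) ρa (s i)
      ((A.I h.1).str (A.x h.1) (.x z) ((A.I h.1).sys.wr i h.2))) →
    (A.I h.1).sys.chi h.2 s → pr (fun ω => ¬ IsB (A.ε h.1) false (A.tout z h ω)) ≤ ρ

theorem hold_ok {Q : BInst N → Prop} (hQ : ∀ n, Q (A.I n)) {ρin ρ : ℝ}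
    (H : HoldSound N Q ρin ρ) (z : Bool) (j : Fin (N.r + 1)) :
    ∀ᶠ h in A.FO, A.HoldOK ρin ρ z j h := by
  obtain ⟨η, hη, H⟩ := H
  have h1 := mod_obeys (A := A) (M := N.hold) (own := .hold z j) (inp := hin z j) (rdn := .inl)
    (cbn := .hold) (fun n h => (A.I n).semH h) (fun _ => rfl) (fun _ _ _ _ _ => rfl)
    (fun _ _ _ _ => rfl) (fun _ _ => rfl) hη
  filter_upwards [h1] with h g1 G s' hG hX
  exact H (A.I h.1) (hQ h.1) h.2 _ _ _ g1.1 _ _ g1.2 G s' hG hX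

theorem step_ok {Q : BInst N → Prop} (hQ : ∀ n, Q (A.I n)) {ρin ρ : ℝ}
    (H : StepSound N Q ρin ρ) (z : Bool) : ∀ᶠ h in A.FO, A.StepOK ρin ρ z h := by
  obtain ⟨η, hη, H⟩ := H
  have h1 := mod_obeys (A := A) (M := N.step) (own := .step z) (inp := hN z)
    (rdn := fun R => .inr (.inl R))
    (cbn := .step z) (fun n h => (A.I n).semS z h) (fun _ => rfl) (fun _ _ _ _ _ => rfl)
    (fun _ _ _ _ => rfl) (fun _ _ => rfl) hη
  filter_upwards [h1] with h g1 s hs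
  exact H (A.I h.1) (hQ h.1) z h.2 _ _ _ g1.1 _ _ g1.2 s hs

theorem check_obeys (z : Bool) {η : ℝ} (hη : 0 < η) :
    ∀ᶠ h in A.FO, Small η (A.ε h.1) (A.lam h.1) (η * A.lam h.1) ∧
      N.check.Obeys ((A.I h.1).semC h.2) (A.ε h.1) (A.lam h.1) (η * A.lam h.1)
        (fun ρ ω => A.x h.1 (.check z ρ) (h.2, ω))
        (fun a ω => A.x h.1 (.x z a.2) ((A.I h.1).sys.wr a.1 h.2, ω)) :=
  mod_obeys (A := A) (M := N.check) (own := .check z) (inp := .x z)
    (rdn := fun R => .inr (.inr R))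
    (cbn := .check) (fun n h => (A.I n).semC h) (fun _ => rfl) (fun _ _ _ _ _ => rfl)
    (fun _ _ _ _ => rfl) (fun _ _ => rfl) hη

theorem flag_ok {Q : BInst N → Prop} (hQ : ∀ n, Q (A.I n)) {ρin κin : ℝ}
    (H : CheckFlag N Q ρin κin) (z : Bool) : ∀ᶠ h in A.FO, A.FlagOK ρin κin z h := by
  obtain ⟨η, hη, H⟩ := H
  filter_upwards [check_obeys (A := A) z hη] with h g1 g0 g2
  have e : (A.I h.1).sys.wr N.own h.2 = h.2 := by
    rw [← (A.facts h.1).own]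
    exact (A.facts h.1).dyn.wr_own h.2
  have g0' : (A.I h.1).Crisp (A.ε h.1) κin
      ((A.I h.1).str (A.x h.1) (.x z) ((A.I h.1).sys.wr N.own h.2)) := by
    rw [e]
    exact g0
  obtain ⟨s, hs⟩ := H (A.I h.1) (hQ h.1) h.2 _ _ _ g1.1 _ _ g1.2 g0' g2
  refine ⟨s, ?_⟩
  have hs' : (A.I h.1).Clean (A.ε h.1) ρin s
      ((A.I h.1).str (A.x h.1) (.x z) ((A.I h.1).sys.wr N.own h.2)) := hs
  rwa [e] at hs'

theorem reject_ok {Q : BInst N → Prop} (hQ : ∀ n, Q (A.I n)) {ρin ρ : ℝ}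
    (H : CheckReject N Q ρin ρ) (z : Bool) : ∀ᶠ h in A.FO, A.RejectOK ρin ρ z h := by
  obtain ⟨η, hη, H⟩ := H
  filter_upwards [check_obeys (A := A) z hη] with h g1 s hs hc
  exact H (A.I h.1) (hQ h.1) h.2 _ _ _ g1.1 _ _ g1.2 s hs hc

theorem accept_ok {Q : BInst N → Prop} (hQ : ∀ n, Q (A.I n)) {ρa ρ : ℝ}
    (H : CheckAccept N Q ρa ρ) (z : Bool) : ∀ᶠ h in A.FO, A.AcceptOK ρa ρ z h := by
  obtain ⟨η, hη, H⟩ := H
  filter_upwards [check_obeys (A := A) z hη] with h g1 s hs hc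
  exact H (A.I h.1) (hQ h.1) h.2 _ _ _ g1.1 _ _ g1.2 s hs hc

end BLim

end Vale.Agent.P330.H551
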